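import Vale.Agent.N327.Core

/-!
# Enumeration reducibility as a system of operators
-/

open MeasureTheory Topology Filter Vale.Agent.P327

namespace Vale.Agent.N327

/-- An enumeration operator, given by its finite approximations. -/
structure EOp where
  /-- the elements enumerated at a stage from a finite list -/
  γ : ℕ × List ℕ → List ℕ
  prim : Primrec γ
  mono : ∀ {m m' L L'}, m ≤ m' → L ⊆ L' → γ (m, L) ⊆ γ (m', L')

instance : Countable EOp :=
  have := countable_primrec (α := ℕ × List ℕ) (β := List ℕ)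
  Function.Injective.countable (f := fun e : EOp => (⟨e.γ, e.prim⟩ : {f // Primrec f}))
    fun ⟨_, _, _⟩ ⟨_, _, _⟩ h => by
      obtain rfl := congrArg Subtype.val h
      rfl

/-- All members of the list belong to `Y`. -/
def In (L : List ℕ) (Y : Om) : Prop := ∀ x ∈ L, Y x = true

/-- The operator `e` sends `Y` to `X`. -/
def EM (e : EOp) (Y X : Om) : Prop := ∀ n, X n = true ↔ ∃ m L, In L Y ∧ n ∈ e.γ (m, L)

/-- A real together with its complement. -/
def hat (X : Om) : Om := jn X fun n => !X n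

theorem isOpen_In (L : List ℕ) : IsOpen {Y | In L Y} := by
  simp only [In, Set.ofPred_forall]
  exact L.finite_toSet.isOpen_biInter fun x _ => isOpen_coord x true

theorem continuous_hat : Continuous hat :=
  continuous_jn.comp (continuous_id.prodMk (continuous_pi fun n =>
    (continuous_of_discreteTopology (f := not)).comp (continuous_apply n)))

theorem In.append {L L' : List ℕ} {Y : Om} (h : In L Y) (h' : In L' Y) : In (L ++ L') Y :=
  fun x hx => (List.mem_append.1 hx).elim (h x) (h' x)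

theorem EM.sound {e : EOp} {Y X : Om} (h : EM e Y X) {L : List ℕ} (hL : In L Y) (m : ℕ) :
    In (e.γ (m, L)) X := fun x hx => (h x).2 ⟨m, L, hL, hx⟩

theorem EM.collect {e : EOp} {Y X : Om} (h : EM e Y X) {L : List ℕ} (hL : In L X) :
    ∃ m D, In D Y ∧ L ⊆ e.γ (m, D) := by
  induction L with
  | nil => exact ⟨0, [], fun _ h => by simp at h, List.nil_subset _⟩
  | cons x L ih =>
    obtain ⟨m, D, h1, h2⟩ := ih fun y hy => hL y (List.mem_cons_of_mem _ hy)
    obtain ⟨m', D', h3, h4⟩ := (h x).1 (hL x List.mem_cons_self)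
    exact ⟨m + m', D ++ D', h1.append h3, List.cons_subset.2
      ⟨e.mono (by omega) (List.subset_append_right _ _) h4,
        List.Subset.trans h2 (e.mono (by omega) (List.subset_append_left _ _))⟩⟩

theorem pmem {α : Type} [Primcodable α] {f : α → ℕ} {g : α → List ℕ} (hf : Primrec f)
    (hg : Primrec g) : PrimrecPred fun a => f a ∈ g a :=
  ((Primrec.eq (α := ℕ)).exists_mem_list.comp hg hf).of_eq (by simp)

theorem peq {α β : Type} [Primcodable α] [Primcodable β] {f g : α → β} (hf : Primrec f)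
    (hg : Primrec g) : PrimrecPred fun a => f a = g a := by
  classical
  exact Primrec.eq.comp hf hg

theorem pmod {α : Type} [Primcodable α] {f : α → ℕ} (hf : Primrec f) (k j : ℕ) :
    PrimrecPred fun a => f a % k = j :=
  peq (Primrec.nat_mod.comp hf (Primrec.const k)) (Primrec.const j)

theorem pdiv {α : Type} [Primcodable α] {f : α → ℕ} (hf : Primrec f) (k : ℕ) :
    Primrec fun a => f a / k := Primrec.nat_div.comp hf (Primrec.const k)

theorem ofRel {β : Type} [Primcodable β] {R : β × ℕ × List ℕ → Prop} (hR : PrimrecPred R) :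
    ∃ e, ∀ Y X : Om, (∀ n, X n = true ↔ ∃ w D, In D Y ∧ R (w, n, D)) → EM e Y X := by
  classical
  let γ : ℕ × List ℕ → List ℕ := fun p => (List.range p.1).filterMap fun c =>
    (Encodable.decode (α := β × ℕ × List ℕ) c).bind fun t =>
      if R t ∧ ∀ a ∈ t.2.2, a ∈ p.2 then some t.2.1 else none
  have hm : ∀ m L n, n ∈ γ (m, L) ↔
      ∃ c < m, ∃ w D, Encodable.decode c = some (w, n, D) ∧ R (w, n, D) ∧ D ⊆ L := by
    intro m L n
    simp only [γ, List.mem_filterMap, List.mem_range, Option.bind_eq_some_iff,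
      Option.ite_none_right_eq_some, Option.some.injEq]
    exact exists_congr fun c => and_congr_right fun _ =>
      ⟨fun ⟨⟨w, _, D⟩, h1, h2, rfl⟩ => ⟨w, D, h1, h2.1, h2.2⟩,
        fun ⟨_, _, h1, h2, h3⟩ => ⟨_, h1, ⟨h2, h3⟩, rfl⟩⟩
  refine ⟨⟨γ, Primrec.listFilterMap (Primrec.list_range.comp Primrec.fst) (Primrec.option_bind
    (Primrec.decode.comp Primrec.snd) (Primrec.ite ((hR.comp Primrec.snd).and
      ((pmem Primrec.fst Primrec.snd).primrecRel.forall_mem_list.comp
        (Primrec.snd.comp (Primrec.snd.comp Primrec.snd))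
        (Primrec.snd.comp (Primrec.fst.comp Primrec.fst))))
      (Primrec.option_some.comp (Primrec.fst.comp (Primrec.snd.comp Primrec.snd)))
      (Primrec.const none)).to₂).to₂, fun h h' n hn => ?_⟩, fun Y X h n => (h n).trans
    ⟨fun ⟨w, D, h1, h2⟩ => ⟨Encodable.encode (w, n, D) + 1, D, h1, (hm _ _ _).2
      ⟨_, Nat.lt_succ_self _, w, D, Encodable.encodek _, h2, List.Subset.refl _⟩⟩,
      fun k => ?_⟩⟩
  · obtain ⟨c, h1, w, D, h2, h3, h4⟩ := (hm _ _ _).1 hn
    exact (hm _ _ _).2 ⟨c, h1.trans_le h, w, D, h2, h3, List.Subset.trans h4 h'⟩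
  · obtain ⟨m, L, h1, h2⟩ := k
    obtain ⟨c, -, w, D, -, h3, h4⟩ := (hm _ _ _).1 h2
    exact ⟨w, D, fun x hx => h1 x (h4 hx), h3⟩

theorem ecomp (e e' : EOp) : ∃ e'', ∀ X Y Z, EM e X Y → EM e' Y Z → EM e'' X Z :=
  ⟨⟨fun p => e'.γ (p.1, e.γ p), e'.prim.comp (Primrec.fst.pair e.prim),
    fun h h' => e'.mono h (e.mono h h')⟩, fun X Y Z h h' n => (h' n).trans
    ⟨fun ⟨m, L, h1, h2⟩ =>
      let ⟨m', D, h3, h4⟩ := h.collect h1
      ⟨m + m', D, h3, e'.mono (by omega)
        (List.Subset.trans h4 (e.mono (by omega) (List.Subset.refl _))) h2⟩,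
    fun ⟨m, _, h1, h2⟩ => ⟨m, _, h.sound h1 m, h2⟩⟩⟩

theorem p21 {α β γ : Type} [Primcodable α] [Primcodable β] [Primcodable γ] :
    Primrec fun t : α × β × γ => t.2.1 := Primrec.fst.comp Primrec.snd

theorem p22 {α β γ : Type} [Primcodable α] [Primcodable β] [Primcodable γ] :
    Primrec fun t : α × β × γ => t.2.2 := Primrec.snd.comp Primrec.snd

theorem epair (e e' : EOp) : ∃ e'', ∀ X Y Z, EM e X Y → EM e' X Z → EM e'' X (jn Y Z) :=
  have k : ∀ e : EOp, PrimrecPred fun t : ℕ × ℕ × List ℕ => t.2.1 / 2 ∈ e.γ (t.1, t.2.2) :=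
    fun e => pmem (pdiv p21 2) (e.prim.comp (Primrec.fst.pair p22))
  (ofRel (((pmod p21 2 0).and (k e)).or ((pmod p21 2 0).not.and (k e')))).imp
    fun _ H X Y Z h h' => H _ _ fun n => by
      by_cases hn : n % 2 = 0
      · simpa [jn, hn] using h (n / 2)
      · simpa [jn, hn] using h' (n / 2)

theorem ecj {q r : ℕ → ℕ} (hq : Primrec q) (hr : Primrec r) :
    ∃ e, ∀ Y, EM e Y fun n => Y (q n) && Y (r n) :=
  (ofRel (β := Unit) ((pmem (hq.comp p21) p22).and (pmem (hr.comp p21) p22))).imp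
    fun _ H Y => H _ _ fun n => by
      rw [Bool.and_eq_true]
      exact ⟨fun h => ⟨(), [q n, r n], by simpa [In] using h, by simp⟩,
        fun ⟨_, _, h1, h2, h3⟩ => ⟨h1 _ h2, h1 _ h3⟩⟩

theorem eq1 {q : ℕ → ℕ} (hq : Primrec q) {X Y : Om} (h : ∀ n, X n = Y (q n)) : ∃ e, EM e Y X :=
  (ecj hq hq).imp fun _ k => by simpa only [Bool.and_self, ← h] using k Y

theorem eiter (e : EOp) (G : ℕ → Om) (h : ∀ n, EM e (G n) (G (n + 1))) :
    ∃ e', EM e' (G 0) (ofCols G) := by
  let I : ℕ → List ℕ → ℕ → List ℕ := fun m D n =>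
    Nat.rec (motive := fun _ => List ℕ) D (fun _ S => e.γ (m, S)) n
  have h1 : ∀ m D, In D (G 0) → ∀ n, In (I m D n) (G n) := fun m D hD n => by
    induction n with
    | zero => exact hD
    | succ n ih => exact (h n).sound ih m
  have h2 : ∀ m m' D, m ≤ m' → ∀ n, I m D n ⊆ I m' D n := fun m m' D hm n => by
    induction n with
    | zero => exact List.Subset.refl _
    | succ n ih => exact e.mono hm ih
  have h3 : ∀ n L, In L (G n) → ∃ m D, In D (G 0) ∧ L ⊆ I m D n := fun n => by
    induction n with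
    | zero => exact fun L hL => ⟨0, L, hL, List.Subset.refl _⟩
    | succ n ih =>
      intro L hL
      obtain ⟨m, L', k1, k2⟩ := (h n).collect hL
      obtain ⟨m', D, k3, k4⟩ := ih L' k1
      exact ⟨m + m', D, k3, List.Subset.trans k2
        (e.mono (by omega) (List.Subset.trans k4 (h2 _ _ _ (by omega) n)))⟩
  refine (ofRel (β := ℕ) (R := fun t => t.2.1.unpair.2 ∈ I t.1 t.2.2 t.2.1.unpair.1)
    (pmem (pu2.comp p21) (Primrec.nat_rec' (pu1.comp p21) p22 (e.prim.comp
      ((Primrec.fst.comp Primrec.fst).pair p22)).to₂))).imp fun _ H => H _ _ fun p =>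
    ⟨fun k => ?_, fun ⟨m, D, k, k'⟩ => h1 m D k _ _ k'⟩
  obtain ⟨m, D, k1, k2⟩ := h3 p.unpair.1 [p.unpair.2] (by simpa [In, ofCols] using k)
  exact ⟨m, D, k1, k2 List.mem_cons_self⟩

theorem hat_lit (Y : Om) (x : ℕ) (b : Bool) : hat Y (2 * x + cond b 0 1) = true ↔ Y x = b := by
  cases b <;> simp [hat, jn_even, jn_odd]

theorem ett {q r : ℕ → ℕ} {h : ℕ × Bool × Bool → Bool} (hq : Primrec q) (hr : Primrec r)
    (hh : Primrec h) (Y : Om) : ∃ e, EM e (hat Y) (hat fun n => h (n, Y (q n), Y (r n))) := by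
  have k : ∀ {q : ℕ → ℕ} {s : Bool × Bool → Bool}, Primrec q → Primrec s →
      PrimrecPred fun t : (Bool × Bool) × ℕ × List ℕ =>
        2 * q (t.2.1 / 2) + cond (s t.1) 0 1 ∈ t.2.2 := fun hq hs =>
    pmem (Primrec.nat_add.comp ((pdbl hq).comp (pdiv p21 2)) (Primrec.cond (hs.comp Primrec.fst)
      (Primrec.const 0) (Primrec.const 1))) p22
  refine (ofRel ((k hq Primrec.fst).and ((k hr Primrec.snd).and (peq (hh.comp
    ((pdiv p21 2).pair Primrec.fst)) (pmod p21 2 0).decide)))).imp fun _ H => H _ _ fun n => ?_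
  rw [show (hat (fun n => h (n, Y (q n), Y (r n))) n = true) ↔
      h (n / 2, Y (q (n / 2)), Y (r (n / 2))) = decide (n % 2 = 0) by
    by_cases hn : n % 2 = 0 <;> simp [hat, jn, hn]]
  refine ⟨fun k => ⟨(Y (q (n / 2)), Y (r (n / 2))), [2 * q (n / 2) + cond (Y (q (n / 2))) 0 1,
    2 * r (n / 2) + cond (Y (r (n / 2))) 0 1], ?_, List.mem_cons_self,
    List.mem_cons_of_mem _ List.mem_cons_self, k⟩, fun ⟨(a, b), D, h1, h2, h3, h4⟩ => ?_⟩
  · simp only [In, List.forall_mem_cons, hat_lit, List.not_mem_nil, false_imp_iff, implies_true,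
      and_self]
  · rw [(hat_lit _ _ _).1 (h1 _ h2), (hat_lit _ _ _).1 (h1 _ h3)]
    exact h4

theorem jn_hat (D t : Om) (x : ℕ) : jn D (hat t) x =
    if x % 2 = 0 then D (x / 2) else if x % 4 = 1 then t (x / 4) else !t (x / 4) := by
  simp only [jn, hat, Nat.div_div_eq_div_mul]
  split_ifs <;> first | rfl | omega

/-- The forcing lemma. -/
theorem force {A D B : Om} (h : ¬ IsMeagre {s | ∃ e, EM e (jn D (hat (selCols B s))) A}) :
    ∃ e, EM e (jn D B) A := by
  classical
  obtain ⟨e, he⟩ : ∃ e, ¬ IsMeagre {s | EM e (jn D (hat (selCols B s))) A} := by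
    by_contra! k
    exact h (by simpa only [Set.ofPred_exists] using isMeagre_iUnion k)
  obtain ⟨s0, hs⟩ := Set.nonempty_iff_ne_empty.2 fun k => he (IsNowhereDense.isMeagre k)
  obtain ⟨N, hN⟩ := exists_pre_of_mem_nhds (mem_interior_iff_mem_nhds.1 hs)
  have cc : Continuous fun s => jn D (hat (selCols B s)) := continuous_jn.comp
    (continuous_const.prodMk (continuous_hat.comp (continuous_pi fun n =>
      (continuous_of_discreteTopology (f := fun c => B n.unpair.1 && c)).comp
        (continuous_apply n))))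
  have f1 : Primrec fun a : ℕ × List ℕ × List ℕ => a.1 := Primrec.fst
  have τ := Primrec.list_getElem?.comp (Primrec.const (pre (selCols B s0) N)) (pdiv f1 4)
  refine (ofRel (β := ℕ × List ℕ) ((pmem p21 (e.prim.comp Primrec.fst)).and
    ((((pmod f1 2 0).and (pmem f1 p22)).or (((pmod f1 4 1).and ((pmem (Primrec.nat_add.comp f1
      (Primrec.const 2)) p21).not.and ((pmem ((pdbl1 pu1).comp (pdiv f1 4)) p22).and
        (peq τ (Primrec.const (some false))).not))).or ((pmod f1 4 3).and
          (peq τ (Primrec.const (some true))).not))).primrecRel.forall_mem_list.comp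
      (Primrec.snd.comp Primrec.fst) ((Primrec.snd.comp Primrec.fst).pair p22)))).imp
    fun _ H => H _ _ fun n => ⟨fun hn => ?_, fun ⟨(m, L), D', h1, h2, h3⟩ => ?_⟩
  · obtain ⟨s, hs1, hs2⟩ := mem_closure_iff_nhds.1 (hN s0 rfl) _ (pre_nhds s0 N)
    obtain ⟨m, L, h1, h2⟩ := (hs2 n).1 hn
    refine ⟨(m, L), (L ++ L.map fun x => 2 * (x / 4).unpair.1 + 1).filter (jn D B),
      fun x hx => (List.mem_filter.1 hx).2, h2, fun x hx => ?_⟩
    have e1 : pre (selCols B s0) N = pre (selCols B s) N := (pre_eq_iff _ _ _).2 fun i hi => by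
      simp only [selCols, (pre_eq_iff _ _ _).1 hs1 i hi]
    have k := (jn_hat _ _ _).symm.trans (h1 x hx)
    simp only [e1, pre_getElem?, List.mem_filter, List.mem_append, jn_odd]
    split_ifs at k with a1 a2
    · exact .inl ⟨a1, .inl hx, by rwa [jn, if_pos a1]⟩
    · refine .inr (.inl ⟨a2, fun hx' => ?_, ⟨.inr (List.mem_map_of_mem hx),
        (Bool.and_eq_true_iff.1 k).1⟩, by split_ifs <;> simp [k]⟩)
      have k' := (jn_hat _ _ _).symm.trans (h1 _ hx')
      rw [if_neg (by omega), if_neg (by omega), show (x + 2) / 4 = x / 4 by omega, k] at k'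
      simp at k'
    · exact .inr (.inr ⟨by omega, by split_ifs <;> simp_all⟩)
  · obtain ⟨s, hs1, hs2⟩ := mem_closure_iff.1 (hN (fun y => if y < N then s0 y else
      decide (4 * y + 1 ∈ L)) ((pre_eq_iff _ _ _).2 fun i hi => if_pos hi)) _
      ((isOpen_In L).preimage cc) fun x hx => by
        beta_reduce
        rw [jn_hat]
        rcases h3 x hx with ⟨a1, a2⟩ | ⟨a1, -, a2, a3⟩ | ⟨a1, a2⟩
        · simpa [jn, a1] using h1 x a2
        · have a4 := (jn_odd _ _ _).symm.trans (h1 _ a2)
          rw [if_neg (by omega), if_pos a1]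
          by_cases hy : x / 4 < N
          · rw [pre_getElem?] at a3
            simpa [selCols, hy] using a3
          · simpa [selCols, hy, a4, show 4 * (x / 4) + 1 = x by omega] using hx
        · rw [if_neg (by omega), if_neg (by omega)]
          by_cases hy : x / 4 < N
          · rw [pre_getElem?] at a2
            simpa [selCols, hy, imp_iff_not_or] using a2
          · have : 4 * (x / 4) + 1 ∉ L := fun k => by
              rcases h3 _ k with ⟨b, -⟩ | ⟨-, b, -⟩ | ⟨b, -⟩
              · omega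
              · exact b (by rwa [show 4 * (x / 4) + 1 + 2 = x by omega])
              · omega
            simp [selCols, hy, this]
    exact (hs2 n).2 ⟨m, L, hs1, h2⟩

theorem fmod {X Z : Om} {q : ℕ → ℕ} (hq : Primrec q) (K : ℕ) (h : ∀ k, K ≤ k → X k = Z (q k)) :
    ∃ e, EM e Z X :=
  have k := Primrec.nat_lt.comp (p21 (α := Unit) (γ := List ℕ)) (Primrec.const K)
  (ofRel ((k.and (peq ((Primrec.list_getD false).comp (Primrec.const (pre X K)) p21)
    (Primrec.const true))).or (k.not.and (pmem (hq.comp p21) p22)))).imp fun _ H => H _ _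
    fun n => by
      by_cases hn : n < K
      · simp only [hn, pre_getD X hn, true_and, not_true, false_and, or_false]
        exact ⟨fun k => ⟨(), [], fun _ h => by simp at h, k⟩, fun ⟨_, _, _, k⟩ => k⟩
      · simp only [hn, h n (not_lt.1 hn), true_and, not_false_iff, false_and, false_or]
        exact ⟨fun k => ⟨(), [q n], by simpa [In] using k, List.mem_cons_self⟩,
          fun ⟨_, _, k, k'⟩ => k _ k'⟩

theorem meas_ev (e : EOp) (n : ℕ) : Measurable fun Y => ∃ m L, In L Y ∧ n ∈ e.γ (m, L) :=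
  .exists fun _ => .exists fun L =>
    (measurableSet_setOfPred.1 (isOpen_In L).measurableSet).and measurable_const

/-- Enumeration reducibility. -/
noncomputable def esys : Sys where
  ι := EOp
  M := EM
  hat := hat
  ev e Y n := by
    classical
    exact decide (∃ m L, In L Y ∧ n ∈ e.γ (m, L))
  mM e := Measurable.setOf (.forall fun n => .iff (measurableSet_setOfPred.1
    (measurable_snd (isOpen_coord n true).measurableSet)) ((meas_ev e n).comp measurable_fst))
  mev e := measurable_pi_iff.2 fun n => measurable_to_bool (by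
    simpa [Set.preimage] using (meas_ev e n).setOf)
  ev_eq e Y X h := funext fun n => by simp [← h n]
  mhat := continuous_hat.measurable
  fhat Z := (Set.countable_singleton Z).preimage fun X Y h => funext fun n =>
    (jn_even _ _ n).symm.trans ((congrFun h _).trans (jn_even _ _ n))
  comp := ecomp
  pair := epair
  cj _ _ := ecj
  iter := eiter
  tt _ _ _ := ett
  hj X Y := eq1 (Primrec.nat_add.comp (pdbl (Primrec.nat_add.comp (pdbl (pdiv Primrec.id 4))
    (Primrec.nat_mod.comp Primrec.id (Primrec.const 2))))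
    (Primrec.nat_mod.comp (pdiv Primrec.id 2) (Primrec.const 2))) fun n => by
      obtain ⟨k, rfl | rfl | rfl | rfl⟩ :
        ∃ k, n = 4 * k ∨ n = 4 * k + 1 ∨ n = 4 * k + 2 ∨ n = 4 * k + 3 := ⟨n / 4, by omega⟩
      all_goals
        simp only [hat, jn, id]
        split_ifs <;> first | omega | (congr 1; omega) | (congr 2; omega)
  cone A B h := by
    obtain ⟨e, he⟩ := force (B := fun _ => true) h
    obtain ⟨l, hl⟩ := eq1 Primrec.id fun n => (rfl : A n = A (id n))
    obtain ⟨r, hr⟩ := ofRel (β := Unit) (peq (Primrec.const 0) (Primrec.const 0))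
    obtain ⟨u, hu⟩ := epair l r
    exact (ecomp u e).imp fun _ k => k _ _ _ (hu _ _ _ hl (hr _ _ fun _ =>
      ⟨fun _ => ⟨(), [], fun _ h => by simp at h, rfl⟩, fun _ => rfl⟩)) he

theorem hat_swap (a : Om) (k : ℕ) : hat a (2 * (k / 2) + (1 - k % 2)) = !hat a k := by
  obtain ⟨j, rfl | rfl⟩ := Nat.even_or_odd' k
  · rw [show 2 * (2 * j / 2) + (1 - 2 * j % 2) = 2 * j + 1 by omega, hat, jn_odd, jn_even]
  · rw [show 2 * ((2 * j + 1) / 2) + (1 - (2 * j + 1) % 2) = 2 * j by omega, hat, jn_odd, jn_even,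
      Bool.not_not]

theorem pswap : Primrec fun k : ℕ => 2 * (k / 2) + (1 - k % 2) :=
  Primrec.nat_add.comp (pdbl (pdiv Primrec.id 2)) (Primrec.nat_sub.comp (Primrec.const 1)
    (Primrec.nat_mod.comp Primrec.id (Primrec.const 2)))

theorem ebase : esys.Base := fun X B C H => by
  by_contra hc
  have h1 : IsMeagre {s | ∃ e, EM e (jn C (hat (selCols B s))) X} :=
    by_contra fun k => hc (Sys.le.trans (S := esys) (force k) (esys.comm _ _))
  have h2 : ∀ᶠ s in residual Om, ∀ b, ∃ j, s (Nat.pair b j) = true := by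
    refine eventually_countable_forall.2 fun b => residual_of_dense_open ?_ fun s => ?_
    · exact Set.ofPred_exists _ ▸ isOpen_iUnion fun j => isOpen_coord _ _
    · refine mem_closure_iff_nhds.2 fun U hU => ?_
      obtain ⟨n, hn⟩ := exists_pre_of_mem_nhds hU
      exact ⟨fun y => if y < n then s y else true, hn _ ((pre_eq_iff _ _ _).2 fun i hi =>
        if_pos hi), n, if_neg (Nat.right_le_pair b n).not_gt⟩
  obtain ⟨s, k1, k2⟩ := (dense_of_mem_residual (Eventually.and h1 h2)).nonempty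
  refine k1 (Sys.le.trans (S := esys) (H (hat (selCols B s)) (fun k => ?_)
    (fun Z c K q hq h => ?_) ?_ ?_) (esys.comm _ _))
  · have := hat_swap (selCols B s) 0
    rw [k] at this
    exact absurd this (by decide)
  · cases c
    · exact fmod hq K fun k hk => by simpa using h k hk
    · exact fmod (hq.comp pswap) (K + 1) fun k hk => by
        simpa [hat_swap] using h (2 * (k / 2) + (1 - k % 2)) (by omega)
  · refine eq1 (Primrec.ite (pmod Primrec.id 2 0) (pdiv Primrec.id 2)
      (pswap.comp (pdiv Primrec.id 2))) fun n => ?_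
    show jn (hat (selCols B s)) (fun n => !hat (selCols B s) n) n = _
    simp only [jn, id]
    split_ifs
    exacts [rfl, (hat_swap _ _).symm]
  · refine (ofRel (β := ℕ) (R := fun t => 2 * Nat.pair t.2.1 t.1 ∈ t.2.2) (pmem ((pdbl Primrec.id).comp
      (Primrec₂.natPair.comp p21 Primrec.fst)) p22)).imp fun _ H => H _ _ fun b => ⟨fun hb => ?_, fun ⟨j, D, h, h'⟩ => ?_⟩
    · obtain ⟨j, hj⟩ := k2 b
      exact ⟨j, [2 * Nat.pair b j], by simp [In, hat, jn_even, selCols, hb, hj], List.mem_cons_self⟩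
    · have := (jn_even _ _ _).symm.trans (h _ h')
      simp only [selCols, Nat.unpair_pair, Bool.and_eq_true] at this
      exact this.1

theorem ele {X Y : Om} : esys.le X Y ↔ ∃ W : ℕ × List ℕ → Prop, REPred W ∧
    ∀ n, X n = true ↔ ∃ D, W (n, D) ∧ ∀ m ∈ D, Y m = true := by
  refine ⟨fun ⟨e, h⟩ => ⟨fun p => ∃ m, p.1 ∈ e.γ (m, p.2), (Partrec.rfind
    (pmem (Primrec.fst.comp Primrec.fst) (e.prim.comp (Primrec.snd.pair (Primrec.snd.comp
      Primrec.fst)))).decide.to_comp.partrec.to₂).dom_re.of_eq fun p =>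
      Nat.rfind_dom.trans (by simp),
    fun n => (h n).trans ⟨fun ⟨m, D, h1, h2⟩ => ⟨D, ⟨m, h2⟩, h1⟩,
      fun ⟨D, ⟨m, h2⟩, h1⟩ => ⟨m, D, h1, h2⟩⟩⟩, fun ⟨W, hW, h⟩ => ?_⟩
  obtain ⟨c, hc⟩ := Nat.Partrec.Code.exists_code.1 hW
  have k : ∀ p, W p ↔ ∃ k, (c.evaln k (Encodable.encode p)).isSome = true := fun p => by
    simp only [Option.isSome_iff_exists]
    rw [exists_comm]
    simp only [← Option.mem_def, ← Nat.Partrec.Code.evaln_complete, hc, Encodable.encodek]
    simp
  exact (ofRel (β := ℕ) (peq (Primrec.option_isSome.comp (Nat.Partrec.Code.primrec_evaln.comp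
    ((Primrec.fst.pair (Primrec.const c)).pair (Primrec.encode.comp Primrec.snd))))
    (Primrec.const true))).imp fun _ H => H _ _ fun n => (h n).trans
      ⟨fun ⟨D, h1, h2⟩ => ((k _).1 h1).imp fun _ h => ⟨D, h2, h⟩,
        fun ⟨j, D, h1, h2⟩ => ⟨D, (k _).2 ⟨j, h2⟩, h1⟩⟩

end Vale.Agent.N327
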