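import Vale.Agent.N327.Core
import Mathlib.Topology.LocallyConstant.Basic

/-!
# Truth-table and weak truth-table reducibility as systems of operators
-/

open MeasureTheory Topology Filter Vale.Agent.P327

namespace Vale.Agent.N327

theorem countable_partrec {α β : Type*} [Primcodable α] [Primcodable β] :
    {f : α →. β | Partrec f}.Countable := by
  have h : ∀ f : {f : α →. β | Partrec f}, ∃ c : Nat.Partrec.Code,
      c.eval = fun n => Part.bind (Encodable.decode (α := α) n) fun a =>
        (f.1 a).map Encodable.encode := fun f => Nat.Partrec.Code.exists_code.1 f.2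
  choose c hc using h
  refine Set.countable_coe_iff.1 (Function.Injective.countable (f := c) fun f g hfg =>
    Subtype.ext (funext fun a => Part.ext fun b => ?_))
  have h1 := congrFun ((hc f).symm.trans (hfg ▸ hc g)) (Encodable.encode a)
  simp only [Encodable.encodek, Part.coe_some, Part.bind_some] at h1
  simpa [Part.mem_map_iff] using Part.ext_iff.1 h1 (Encodable.encode b)

/-- An operator with computably bounded use, total if `b` holds. -/
structure WOp (b : Prop) where
  /-- the use -/
  U : ℕ → ℕ
  /-- the computation -/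
  Ψ : ℕ × List Bool →. List Bool
  hU : Computable U
  hΨ : Partrec Ψ
  tot : b → ∀ x, (Ψ x).Dom

instance (b : Prop) : Countable (WOp b) := by
  have h1 := (countable_partrec (α := ℕ) (β := ℕ)).to_subtype
  have h2 := (countable_partrec (α := ℕ × List Bool) (β := List Bool)).to_subtype
  refine Function.Injective.countable (f := fun e : WOp b =>
    ((⟨e.U, e.hU⟩ : {f : ℕ →. ℕ | Partrec f}),
      (⟨e.Ψ, e.hΨ⟩ : {f : ℕ × List Bool →. List Bool | Partrec f}))) ?_
  rintro ⟨U, Ψ, _, _, _⟩ ⟨U', Ψ', _, _, _⟩ h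
  obtain rfl : U = U' := funext fun n =>
    Part.some_injective (congrFun (congrArg (fun p => p.1.1) h) n)
  obtain rfl : Ψ = Ψ' := congrArg (fun p => p.2.1) h
  rfl

variable {b : Prop}

/-- The operator `e` sends `Y` to `X`. -/
def WM (e : WOp b) (Y X : Om) : Prop := ∀ n, pre X n ∈ e.Ψ (n, pre Y (e.U n))

theorem lc_pre (n : ℕ) : IsLocallyConstant fun X : Om => pre X n :=
  (IsLocallyConstant.iff_eventually_eq _).2 fun X => pre_nhds X n

theorem isClosed_WM (e : WOp b) : IsClosed {p : Om × Om | WM e p.1 p.2} := by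
  simp only [WM, Set.ofPred_forall]
  exact isClosed_iInter fun n => isOpen_compl_iff.1
    ((((lc_pre (e.U n)).comp_continuous continuous_fst).prodMk
      ((lc_pre n).comp_continuous continuous_snd)) {x | x.2 ∈ e.Ψ (n, x.1)}ᶜ)

theorem dom_rec {σ : Type} {g : Part σ} {h : ℕ × σ →. σ} (hg : g.Dom) (hh : ∀ x, (h x).Dom)
    (n : ℕ) : (Nat.rec (motive := fun _ => Part σ) g
      (fun y IH => IH.bind fun i => h (y, i)) n).Dom := by
  induction n with
  | zero => exact hg
  | succ n ih => exact ⟨ih, hh _⟩

theorem ofBit {u : ℕ → ℕ} {ψ : ℕ × List Bool →. Bool} (hu : Computable u) (hψ : Partrec ψ)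
    (ht : b → ∀ x, (ψ x).Dom) :
    ∃ e : WOp b, ∀ Y X : Om, (∀ n, X n ∈ ψ (n, pre Y (u n))) → WM e Y X := by
  let U : ℕ → ℕ := fun n => Nat.rec (motive := fun _ => ℕ) 0 (fun i x => x + u i) n
  have hle : ∀ n i, i < n → u i ≤ U n := by
    intro n i hi
    induction n with
    | zero => omega
    | succ n ih =>
      show _ ≤ U n + u n
      rcases Nat.lt_succ_iff_lt_or_eq.1 hi with h | rfl
      · exact (ih h).trans (Nat.le_add_right _ _)
      · exact Nat.le_add_left _ _
  refine ⟨⟨U, fun x => Nat.rec (motive := fun _ => Part (List Bool)) (Part.some [])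
    (fun y IH => IH.bind fun l => (fun (x : ℕ × List Bool) (p : ℕ × List Bool) =>
      (ψ (p.1, x.2.take (u p.1))).map fun c => p.2 ++ [c]) x (y, l)) x.1,
    Computable.nat_rec Computable.id (Computable.const 0) (Primrec.nat_add.to_comp.comp
      (Computable.snd.comp Computable.snd) (hu.comp (Computable.fst.comp Computable.snd))).to₂,
    Partrec.nat_rec Computable.fst (Computable.const []).partrec
      ((hψ.comp ((Computable.fst.comp Computable.snd).pair (Primrec.list_take.to_comp.comp
        (hu.comp (Computable.fst.comp Computable.snd)) (Computable.snd.comp Computable.fst)))).map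
        (Computable.list_concat.comp (Computable.snd.comp (Computable.snd.comp Computable.fst))
          Computable.snd).to₂).to₂,
    fun hb x => dom_rec (h := fun p => (ψ (p.1, x.2.take (u p.1))).map fun c => p.2 ++ [c])
      trivial (fun p => ht hb _) _⟩, fun Y X h n => ?_⟩
  suffices ∀ j ≤ n, pre X j ∈ Nat.rec (motive := fun _ => Part (List Bool)) (Part.some [])
      (fun y IH => IH.bind fun l => (ψ (y, (pre Y (U n)).take (u y))).map fun c => l ++ [c]) j from
    this n le_rfl
  intro j hj
  induction j with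
  | zero => exact Part.mem_some _
  | succ j ih =>
    refine Part.mem_bind (ih (by omega)) ?_
    rw [pre_take _ _ _ (hle _ _ hj), show pre X (j + 1) = pre X j ++ [X j] by
      simp [pre, List.range_succ]]
    exact Part.mem_map _ (h j)

theorem tt2 {q r : ℕ → ℕ} {h : ℕ × Bool × Bool → Bool} (hq : Primrec q) (hr : Primrec r)
    (hh : Primrec h) : ∃ e : WOp b, ∀ Y, WM e Y fun n => h (n, Y (q n), Y (r n)) := by
  have k : ∀ {q : ℕ → ℕ}, Primrec q → Primrec fun x : ℕ × List Bool => x.2.getD (q x.1) false :=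
    fun hq => (Primrec.list_getD false).comp Primrec.snd (hq.comp Primrec.fst)
  refine (ofBit (Primrec.succ.comp (Primrec.nat_add.comp hq hr)).to_comp
    (hh.comp (Primrec.fst.pair ((k hq).pair (k hr)))).to_comp.partrec fun _ _ => trivial).imp
    fun _ H Y => H _ _ fun n => ?_
  have h1 : q n < (q n + r n).succ := by omega
  have h2 : r n < (q n + r n).succ := by omega
  simp only [PFun.coe_val, pre_getD Y h1, pre_getD Y h2, Part.mem_some_iff]

theorem WM.bit {e : WOp b} {Y X : Om} (h : WM e Y X) (n : ℕ) :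
    X n ∈ (e.Ψ (n + 1, pre Y (e.U (n + 1)))).map fun l => l.getD n false :=
  pre_getD X (Nat.lt_succ_self n) false ▸ Part.mem_map _ (h (n + 1))

theorem wcomp (e e' : WOp b) : ∃ e'' : WOp b, ∀ X Y Z, WM e X Y → WM e' Y Z → WM e'' X Z :=
  ⟨⟨fun n => e.U (e'.U n), fun x => (e.Ψ (e'.U x.1, x.2)).bind fun τ => e'.Ψ (x.1, τ),
    e.hU.comp e'.hU, (e.hΨ.comp ((e'.hU.comp Computable.fst).pair Computable.snd)).bind
      (e'.hΨ.comp ((Computable.fst.comp Computable.fst).pair Computable.snd)).to₂,
    fun hb _ => ⟨e.tot hb _, e'.tot hb _⟩⟩, fun _ _ _ h h' n => Part.mem_bind (h _) (h' n)⟩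

theorem wpair (e e' : WOp b) :
    ∃ e'' : WOp b, ∀ X Y Z, WM e X Y → WM e' X Z → WM e'' X (jn Y Z) := by
  have k : ∀ e : WOp b, Partrec fun x : ℕ × List Bool => e.Ψ (x.1, x.2.take (e.U x.1)) := fun e =>
    e.hΨ.comp (Computable.fst.pair (Primrec.list_take.to_comp.comp (e.hU.comp Computable.fst)
      Computable.snd))
  refine ⟨⟨fun n => e.U n + e'.U n, fun x => (e.Ψ (x.1, x.2.take (e.U x.1))).bind fun σ =>
    (e'.Ψ (x.1, x.2.take (e'.U x.1))).map fun τ => (jnS σ τ).take x.1,
    Primrec.nat_add.to_comp.comp e.hU e'.hU, (k e).bind (((k e').comp Computable.fst).map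
      (Primrec.list_take.comp (Primrec.fst.comp (Primrec.fst.comp Primrec.fst))
        (jnS_prim.comp (Primrec.snd.comp Primrec.fst) Primrec.snd)).to_comp.to₂).to₂,
    fun hb _ => ⟨e.tot hb _, e'.tot hb _⟩⟩, fun X Y Z h h' n => ?_⟩
  have h1 := h n
  have h2 := h' n
  rw [← pre_take X (e.U n + e'.U n) _ (by omega)] at h1 h2
  refine Part.mem_bind h1 ?_
  rw [← pre_take (jn Y Z) (2 * min n n) n (by omega), ← jnS_pre]
  exact Part.mem_map _ h2

theorem witer (e : WOp b) (G : ℕ → Om) (h : ∀ n, WM e (G n) (G (n + 1))) :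
    ∃ e' : WOp b, WM e' (G 0) (ofCols G) := by
  let V : ℕ → ℕ → ℕ := fun k i => Nat.rec (motive := fun _ => ℕ) (k + 1) (fun _ x => e.U x) i
  have hV : Computable₂ V := Computable.nat_rec Computable.snd
    (Computable.succ.comp Computable.fst) (e.hU.comp (Computable.snd.comp Computable.snd)).to₂
  have p1 : Computable fun x : ℕ × List Bool => x.1.unpair.1 := (pu1.comp Primrec.fst).to_comp
  have p2 : Computable fun x : ℕ × List Bool => x.1.unpair.2 := (pu2.comp Primrec.fst).to_comp
  refine (ofBit (hV.comp pu2.to_comp pu1.to_comp) ((Partrec.nat_rec p1 Computable.snd.partrec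
    (h := fun x p => e.Ψ (V x.1.unpair.2 (x.1.unpair.1 - (p.1 + 1)), p.2))
    (e.hΨ.comp ((hV.comp (p2.comp Computable.fst) (Primrec.nat_sub.to_comp.comp
      (p1.comp Computable.fst) (Computable.succ.comp (Computable.fst.comp Computable.snd)))).pair
      (Computable.snd.comp Computable.snd))).to₂).map ((Primrec.list_getD false).to_comp.comp
        Computable.snd (p2.comp Computable.fst)).to₂)
    fun hb x => dom_rec (g := Part.some x.2)
      (h := fun p => e.Ψ (V x.1.unpair.2 (x.1.unpair.1 - (p.1 + 1)), p.2)) trivial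
      (fun p => e.tot hb _) x.1.unpair.1).imp fun _ H => H _ _ fun m => ?_
  obtain ⟨⟨n, k⟩, rfl⟩ := Nat.pairEquiv.surjective m
  simp only [Nat.pairEquiv_apply, Function.uncurry, ofCols, Nat.unpair_pair]
  suffices ∀ j ≤ n, pre (G j) (V k (n - j)) ∈ Nat.rec (motive := fun _ => Part (List Bool))
      (Part.some (pre (G 0) (V k n))) (fun y IH => IH.bind fun l => e.Ψ (V k (n - (y + 1)), l)) j by
    have := Part.mem_map (fun l => l.getD k false) (this n le_rfl)
    rwa [Nat.sub_self, pre_getD _ (show k < V k 0 from Nat.lt_succ_self k)] at this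
  intro j hj
  induction j with
  | zero => exact Part.mem_some _
  | succ j ih =>
    refine Part.mem_bind (ih (by omega)) ?_
    rw [show n - j = n - (j + 1) + 1 by omega]
    exact h j _

/-- Weak truth-table reducibility, or truth-table reducibility if `b` holds. -/
noncomputable def wsys (b : Prop) : Sys where
  ι := WOp b
  M := WM
  hat := id
  ev e Y n := by
    classical
    exact decide (true ∈ (e.Ψ (n + 1, pre Y (e.U (n + 1)))).map fun l => l.getD n false)
  mM e := (isClosed_WM e).measurableSet
  mev e := measurable_pi_iff.2 fun n => by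
    classical
    exact ((lc_pre (e.U (n + 1))).comp fun σ => decide (true ∈ (e.Ψ (n + 1, σ)).map
      fun l => l.getD n false)).continuous.measurable
  ev_eq e Y X h := funext fun n => by
    rw [Part.eq_some_iff.2 (h.bit n)]
    cases X n <;> simp
  mhat := measurable_id
  fhat Z := Set.countable_singleton Z
  comp := wcomp
  pair := wpair
  cj q r hq hr := tt2 (h := fun p => p.2.1 && p.2.2) hq hr
    (Primrec.and.comp (Primrec.fst.comp Primrec.snd) (Primrec.snd.comp Primrec.snd))
  iter := witer
  tt q r h hq hr hh Y := (tt2 hq hr hh).imp fun _ k => k Y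
  hj X Y := (tt2 (h := fun p => p.2.1) Primrec.id Primrec.id
    (Primrec.fst.comp Primrec.snd)).imp fun _ k => k _
  cone A B h := by
    obtain ⟨e, he⟩ : ∃ e : WOp b, ¬ IsMeagre {s | WM e (jn A s) B} := by
      by_contra! k
      exact h (by simpa only [id, Set.ofPred_exists] using isMeagre_iUnion k)
    have hc : IsClosed {s | WM e (jn A s) B} := (isClosed_WM e).preimage
      ((continuous_jn.comp (continuous_const.prodMk continuous_id)).prodMk continuous_const)
    obtain ⟨s, hs⟩ := Set.nonempty_iff_ne_empty.2 fun k =>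
      he (hc.isNowhereDense_iff.2 k).isMeagre
    obtain ⟨n, hn⟩ := exists_pre_of_mem_nhds (mem_interior_iff_mem_nhds.1 hs)
    obtain ⟨l, hl⟩ := tt2 (b := b) (h := fun p => p.2.1) Primrec.id Primrec.id
      (Primrec.fst.comp Primrec.snd)
    obtain ⟨r, hr⟩ := tt2 (b := b) (h := fun p => (pre s n).getD p.1 false) Primrec.id Primrec.id
      ((Primrec.list_getD false).comp (Primrec.const _) Primrec.fst)
    obtain ⟨u, hu⟩ := wpair l r
    exact (wcomp u e).imp fun _ k => k _ _ _ (hu _ _ _ (hl A) (hr A))
      (hn (ext0 (pre s n)) (by simpa only [pre_length] using pre_ext0 (pre s n)))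

theorem wdec (a : Om) : (wsys b).Dec a := fun Z c K q hq h =>
  (tt2 (h := fun p => if p.1 < K then (pre a K).getD p.1 false else xor p.2.1 c) hq hq
    (Primrec.ite (Primrec.nat_lt.comp Primrec.fst (Primrec.const K))
      ((Primrec.list_getD false).comp (Primrec.const _) Primrec.fst)
      ((Primrec.dom_bool fun x => xor x c).comp (Primrec.fst.comp Primrec.snd)))).imp fun e k => by
    have := k Z
    rwa [show (fun n => if n < K then (pre a K).getD n false else xor (Z (q n)) c) = a from
      funext fun n => by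
        split_ifs with hn
        exacts [pre_getD a hn false, (h n (not_lt.1 hn)).symm]] at this

theorem wbase : (wsys b).Base := fun X B C h =>
  (h (jn B fun _ => true) (fun k => by simpa using (jn_odd B _ 0).symm.trans (congrFun k 1))
    (wdec _) ((wsys b).refl _) ((wsys b).left _ _)).trans (Sys.mono (Sys.lub ((wsys b).refl _)
      ((tt2 (h := fun _ => true) Primrec.id Primrec.id (Primrec.const _)).imp fun _ k => k B))
      ((wsys b).refl _))

theorem wle {X Y : Om} : (wsys b).le X Y ↔ ∃ (u : ℕ → ℕ) (ψ : ℕ × List Bool →. Bool),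
    Computable u ∧ Partrec ψ ∧ (b → ∀ x, (ψ x).Dom) ∧ ∀ n, X n ∈ ψ (n, pre Y (u n)) :=
  ⟨fun ⟨e, h⟩ => ⟨fun n => e.U (n + 1), fun x => (e.Ψ (x.1 + 1, x.2)).map fun l => l.getD x.1 false,
    e.hU.comp Computable.succ, (e.hΨ.comp ((Computable.succ.comp Computable.fst).pair
      Computable.snd)).map ((Primrec.list_getD false).comp Primrec.snd
        (Primrec.fst.comp Primrec.fst)).to_comp.to₂, fun hb _ => e.tot hb _, WM.bit h⟩,
    fun ⟨_, _, hu, hψ, ht, h⟩ => (ofBit hu hψ ht).imp fun _ k => k _ _ h⟩

end Vale.Agent.N327
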