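import Vale.Agent.N327.Defs
import Vale.Agent.N327.Wtt
import Vale.Agent.N327.Enum

/-!
# From reals to degrees
-/

open Vale.Agent.P327

namespace Vale.Agent.N327

theorem bit_iff (A : Set ℕ) (n : ℕ) : bit A n = true ↔ n ∈ A := by simp [bit]

theorem bit_of (X : Om) : bit {n | X n = true} = X := funext fun n => by simp [bit]

/-- `R` is the preorder `r` on reals. -/
structure Rep (R : Set ℕ → Set ℕ → Prop) (r : Om → Om → Prop) : Prop where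
  iff : ∀ A B, R A B ↔ r (bit A) (bit B)
  rfl : ∀ X, r X X
  tr : ∀ {X Y Z}, r X Y → r Y Z → r X Z

/-- The degree of a real. -/
def dgr (R : Set ℕ → Set ℕ → Prop) (X : Om) : Deg R :=
  ⟨{A | R A {n | X n = true} ∧ R {n | X n = true} A}, _, rfl⟩

theorem dgr_surj {R : Set ℕ → Set ℕ → Prop} (a : Deg R) : ∃ X, dgr R X = a := by
  obtain ⟨a, A, rfl⟩ := a
  exact ⟨bit A, Subtype.ext (by simp only [dgr, bit_iff, Set.ofPred_mem_eq])⟩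

namespace Rep

variable {R : Set ℕ → Set ℕ → Prop} {r : Om → Om → Prop} (H : Rep R r)
include H

theorem pre : (∀ A, R A A) ∧ ∀ A B C, R A B → R B C → R A C := by
  simp only [H.iff]
  exact ⟨fun _ => H.rfl _, fun _ _ _ => H.tr⟩

theorem le (X Y : Om) : DLe R (dgr R X) (dgr R Y) ↔ r X Y := by
  simp only [DLe, dgr, Set.mem_ofPred_eq, H.iff, bit_of]
  exact ⟨fun ⟨_, h1, _, h2, h3⟩ => H.tr h1.2 (H.tr h3 h2.1), fun h =>
    ⟨{n | X n = true}, by simp [bit_of, H.rfl], {n | Y n = true}, by simp [bit_of, H.rfl],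
      by simpa only [bit_of] using h⟩⟩

theorem eq {X Y : Om} (h : r X Y ∧ r Y X) : dgr R X = dgr R Y :=
  Subtype.ext (Set.ext fun A => by
    simp only [dgr, Set.mem_ofPred_eq, H.iff, bit_of]
    exact ⟨fun k => ⟨H.tr k.1 h.1, H.tr h.2 k.2⟩, fun k => ⟨H.tr k.1 h.2, H.tr h.1 k.2⟩⟩)

theorem rigid (K : ∀ ρ : Om → Om → Prop, (∀ {X Y X' Y'}, ρ X Y → ρ X' Y' → (r X X' ↔ r Y Y')) →
    (∀ X, ∃ Y, ρ X Y) → (∀ Y, ∃ X, ρ X Y) → ∀ C D, ρ C D → r D C ∧ r C D) : Rigid R := by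
  intro π hb hπ a
  obtain ⟨C, rfl⟩ := dgr_surj a
  obtain ⟨D, hD⟩ := dgr_surj (π (dgr R C))
  refine hD ▸ H.eq (K (fun X Y => dgr R Y = π (dgr R X)) (fun h h' => ?_)
    (fun X => dgr_surj _) (fun Y => ?_) C D hD)
  · rw [← H.le, ← H.le, h, h', hπ]
  · obtain ⟨b, hb⟩ := hb.2 (dgr R Y)
    exact (dgr_surj b).imp fun X h => by rw [h, hb]

end Rep

theorem Sys.rigid {R : Set ℕ → Set ℕ → Prop} {S : Sys} (hS : S.Base)
    (h : ∀ A B, R A B ↔ S.le (bit A) (bit B)) :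
    (Rigid R ∧ SegRigid R) ∧ (∀ A, R A A) ∧ ∀ A B C, R A B → R B C → R A C := by
  have H : Rep R S.le := ⟨h, S.refl, Sys.le.trans⟩
  refine ⟨⟨H.rigid fun ρ h1 h2 h3 C D h0 =>
    (Sys.fix hS ρ h1 h0 (fun _ => h2 _) fun _ => h3 _).symm, fun U V hU hV π hb hπ => ?_⟩, H.pre⟩
  have k : ∀ a : U, (π a).1 = a.1 := by
    rintro ⟨a, ha⟩
    obtain ⟨C, rfl⟩ := dgr_surj a
    obtain ⟨D, hD⟩ := dgr_surj (π ⟨_, ha⟩).1
    refine hD ▸ H.eq (Sys.fix hS (fun X Y => ∃ h : dgr R X ∈ U, dgr R Y = (π ⟨_, h⟩).1)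
      (fun ⟨h, k⟩ ⟨h', k'⟩ => ?_) ⟨ha, hD⟩ (fun X => ?_) fun Y => ?_).symm
    · rw [← H.le, ← H.le, k, k']
      exact hπ ⟨_, h⟩ ⟨_, h'⟩
    · have := hU _ ha _ ((H.le _ _).2 (S.right X C))
      exact (dgr_surj (π ⟨_, this⟩).1).imp fun _ k => ⟨this, k⟩
    · obtain ⟨⟨b, hb'⟩, e⟩ := hb.2 ⟨_, hV _ (hD ▸ (π ⟨_, ha⟩).2) _ ((H.le _ _).2 (S.right Y D))⟩
      obtain ⟨X, rfl⟩ := dgr_surj b
      exact ⟨X, hb', by rw [e]⟩
  refine ⟨Set.ext fun a => ⟨fun ha => Set.mem_of_eq_of_mem (k ⟨a, ha⟩).symm (π ⟨a, ha⟩).2,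
    fun ha => ?_⟩, k⟩
  obtain ⟨b, e⟩ := hb.2 ⟨a, ha⟩
  exact Set.mem_of_eq_of_mem ((congrArg Subtype.val e).symm.trans (k b)) b.2

theorem repT : Rep TR Red := ⟨fun _ _ => (red_iff_turing _ _).symm, Red.refl, Red.trans⟩

theorem rigid_TR : Rigid TR := repT.rigid fun ρ h hf hg C D h0 => by
  choose f hf using hf
  choose g hg using hg
  let π : Auto := ⟨f, g, fun X Y => h (hf X) (hf Y), fun X Y => (h (hg X) (hg Y)).symm,
    fun X => ⟨(h (hf _) (hg X)).1 (Red.refl _), (h (hg X) (hf _)).1 (Red.refl _)⟩,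
    fun X => ⟨(h (hg _) (hf X)).2 (Red.refl _), (h (hf X) (hg _)).2 (Red.refl _)⟩⟩
  exact ⟨((h h0 (hf C)).1 (Red.refl _)).trans (π.symm.g_red_self C),
    ((h h0 (hg D)).2 (Red.refl _)).trans (π.g_red_self D)⟩

theorem tt_iff (A B : Set ℕ) : TT A B ↔ (wsys True).le (bit A) (bit B) :=
  Iff.trans ⟨fun ⟨u, h, hu, hh, k⟩ => ⟨u, h, hu, hh.partrec, fun _ _ => trivial, fun n =>
      Part.mem_some_iff.2 (Bool.eq_iff_iff.2 ((bit_iff A n).trans (k n)))⟩,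
    fun ⟨u, ψ, hu, hψ, ht, k⟩ => ⟨u, fun x => (ψ x).get (ht trivial x), hu,
      hψ.of_eq_tot fun _ => Part.get_mem _, fun n => by
        rw [← bit_iff, ← Part.get_eq_of_mem (k n) (ht trivial _)]
        rfl⟩⟩ wle.symm

theorem wtt_iff (A B : Set ℕ) : WTT A B ↔ (wsys False).le (bit A) (bit B) :=
  Iff.trans ⟨fun ⟨u, ψ, hu, hψ, k⟩ => ⟨u, ψ, hu, hψ, False.elim, k⟩,
    fun ⟨u, ψ, hu, hψ, _, k⟩ => ⟨u, ψ, hu, hψ, k⟩⟩ wle.symm

theorem er_iff (A B : Set ℕ) : ER A B ↔ esys.le (bit A) (bit B) := by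
  simp only [ele, bit_iff, ER]

end Vale.Agent.N327
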