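import Vale.Agent.P327.Bdl.B1

/-!
# Rigidity for abstract reducibilities

The Baire category proof of the rigidity of the Turing degrees, for any countable family of Borel
operators closed under composition, pairing and iteration.
-/

open MeasureTheory Topology Filter Vale.Agent.P327

namespace Vale.Agent.N327

/-- A reducibility given by countably many operators; `hat X` is the total copy of `X`. -/
structure Sys where
  /-- the operators -/
  ι : Type
  [cnt : Countable ι]
  /-- `M e Y X`: the operator `e` sends `Y` to `X` -/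
  M : ι → Om → Om → Prop
  /-- the total copy -/
  hat : Om → Om
  /-- evaluation -/
  ev : ι → Om → Om
  mM : ∀ e, MeasurableSet {p : Om × Om | M e p.1 p.2}
  mev : ∀ e, Measurable (ev e)
  ev_eq : ∀ e Y X, M e Y X → ev e Y = X
  mhat : Measurable hat
  fhat : ∀ Z, (hat ⁻¹' {Z}).Countable
  comp : ∀ e e', ∃ e'', ∀ X Y Z, M e X Y → M e' Y Z → M e'' X Z
  pair : ∀ e e', ∃ e'', ∀ X Y Z, M e X Y → M e' X Z → M e'' X (jn Y Z)
  cj : ∀ q r : ℕ → ℕ, Primrec q → Primrec r → ∃ e, ∀ Y, M e Y fun n => Y (q n) && Y (r n)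
  iter : ∀ e (G : ℕ → Om), (∀ n, M e (G n) (G (n + 1))) → ∃ e', M e' (G 0) (ofCols G)
  tt : ∀ (q r : ℕ → ℕ) (h : ℕ × Bool × Bool → Bool), Primrec q → Primrec r → Primrec h →
    ∀ Y, ∃ e, M e (hat Y) (hat fun n => h (n, Y (q n), Y (r n)))
  hj : ∀ X Y, ∃ e, M e (jn (hat X) (hat Y)) (hat (jn X Y))
  cone : ∀ A B, ¬ IsMeagre {s | ∃ e, M e (jn A (hat s)) B} → ∃ e, M e A B

attribute [instance] Sys.cnt

theorem pdbl {f : ℕ → ℕ} (hf : Primrec f) : Primrec fun a => 2 * f a :=
  Primrec.nat_mul.comp (Primrec.const 2) hf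

theorem pdbl1 {f : ℕ → ℕ} (hf : Primrec f) : Primrec fun a => 2 * f a + 1 :=
  Primrec.succ.comp (pdbl hf)

theorem pu1 : Primrec fun n : ℕ => n.unpair.1 := Primrec.fst.comp Primrec.unpair

theorem pu2 : Primrec fun n : ℕ => n.unpair.2 := Primrec.snd.comp Primrec.unpair

namespace Sys

variable (S : Sys)

/-- the reducibility -/
def le (X Y : Om) : Prop := ∃ e, S.M e Y X

theorem op1 {q : ℕ → ℕ} (hq : Primrec q) : ∃ e, ∀ Y, S.M e Y fun n => Y (q n) := by
  simpa using S.cj q q hq hq

theorem q1 {q : ℕ → ℕ} (hq : Primrec q) (Y : Om) : S.le (fun n => Y (q n)) Y :=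
  (S.op1 hq).imp fun _ h => h Y

theorem refl (X : Om) : S.le X X := S.q1 Primrec.id X

theorem opl : ∃ e, ∀ X Y, S.M e (jn X Y) X :=
  (S.op1 (pdbl Primrec.id)).imp fun _ h X Y => by simpa only [id, jn_even] using h (jn X Y)

theorem opr : ∃ e, ∀ X Y, S.M e (jn X Y) Y :=
  (S.op1 (pdbl1 Primrec.id)).imp fun _ h X Y => by simpa only [id, jn_odd] using h (jn X Y)

theorem left (X Y : Om) : S.le X (jn X Y) := S.opl.imp fun _ h => h X Y

theorem right (X Y : Om) : S.le Y (jn X Y) := S.opr.imp fun _ h => h X Y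

variable {S}

theorem le.trans {X Y Z : Om} : S.le X Y → S.le Y Z → S.le X Z := fun ⟨e, h⟩ ⟨e', h'⟩ =>
  (S.comp e' e).imp fun _ k => k _ _ _ h' h

theorem lub {X Y Z : Om} : S.le X Z → S.le Y Z → S.le (jn X Y) Z := fun ⟨e, h⟩ ⟨e', h'⟩ =>
  (S.pair e e').imp fun _ k => k _ _ _ h h'

theorem mono {X Y X' Y' : Om} (h : S.le X X') (h' : S.le Y Y') : S.le (jn X Y) (jn X' Y') :=
  lub (h.trans (S.left _ _)) (h'.trans (S.right _ _))

variable (S)

theorem comm (X Y : Om) : S.le (jn X Y) (jn Y X) := lub (S.right _ _) (S.left _ _)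

theorem sel (h X : Om) : S.le (selCols h X) (jn h X) :=
  (S.cj _ _ (pdbl pu1) (pdbl1 Primrec.id)).imp fun _ k => by
    have := k (jn h X)
    simp only [id, jn_even, jn_odd] at this
    exact this

theorem col_le (i : ℕ) (X : Om) : S.le (col i X) X :=
  S.q1 (Primrec₂.natPair.comp (Primrec.const i) Primrec.id) X

theorem iter₁ {e : S.ι} (G : ℕ → Om) (P : Om) (h : ∀ n, S.M e (jn (G n) P) (G (n + 1))) :
    S.le (ofCols G) (jn (G 0) P) := by
  obtain ⟨r, hr⟩ := S.opr
  obtain ⟨u, hu⟩ := S.pair e r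
  refine le.trans ?_ (S.iter u (fun n => jn (G n) P) fun n => hu _ _ _ (h n) (hr _ _))
  have := S.q1 (Primrec₂.natPair.comp pu1 (pdbl pu2)) (ofCols fun n => jn (G n) P)
  simp only [ofCols, Nat.unpair_pair, jn_even] at this
  exact this

theorem iter₂ {e e' : S.ι} (G N : ℕ → Om) (P Q : Om) (h1 : ∀ n, S.M e (jn (G n) P) (N n))
    (h2 : ∀ n, S.M e' (jn (N n) Q) (G (n + 1))) : S.le (ofCols G) (jn (G 0) (jn P Q)) := by
  obtain ⟨l, hl⟩ := S.opl
  obtain ⟨r, hr⟩ := S.opr
  obtain ⟨a, ha⟩ := S.comp r l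
  obtain ⟨b, hb⟩ := S.comp r r
  obtain ⟨c, hc⟩ := S.pair l a
  obtain ⟨d, hd⟩ := S.comp c e
  obtain ⟨u, hu⟩ := S.pair d b
  obtain ⟨w, hw⟩ := S.comp u e'
  exact S.iter₁ G _ fun n => hw _ _ _ (hu _ _ _ (hd _ _ _ (hc _ _ _ (hl _ _)
    (ha _ _ _ (hr _ _) (hl _ _))) (h1 n)) (hb _ _ _ (hr _ _) (hr _ _))) (h2 n)

theorem meas : MeasurableSet {p : Om × Om | S.le p.1 p.2} := by
  rw [show {p : Om × Om | S.le p.1 p.2} = ⋃ e, Prod.swap ⁻¹' {p : Om × Om | S.M e p.1 p.2} from
    Set.ext fun p => by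
      rw [Set.mem_iUnion]
      exact Iff.rfl]
  exact MeasurableSet.iUnion fun e => measurable_swap (S.mM e)

theorem ctble (B : Om) : {Z | S.le Z B}.Countable :=
  (Set.countable_range fun e => S.ev e B).mono fun Z hZ =>
    (show S.le Z B from hZ).imp fun _ h => S.ev_eq _ _ _ h

/-- reducibility of the total copies -/
def L (X Y : Om) : Prop := S.le (S.hat X) (S.hat Y)

theorem L2 {X Y : Om} {q r : ℕ → ℕ} (hq : Primrec q) (hr : Primrec r)
    (h : Bool × Bool → Bool) (e : ∀ n, X n = h (Y (q n), Y (r n))) : S.L X Y := by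
  rw [show X = _ from funext e]
  exact S.tt q r (fun p => h p.2) hq hr ((Primrec.dom_finite h).comp Primrec.snd) Y

theorem Ll (X Y : Om) : S.L X (jn X Y) :=
  S.L2 (pdbl Primrec.id) Primrec.id Prod.fst fun n => (jn_even X Y n).symm

theorem Lr (X Y : Om) : S.L Y (jn X Y) :=
  S.L2 (pdbl1 Primrec.id) Primrec.id Prod.fst fun n => (jn_odd X Y n).symm

theorem Ladd (X Y : Om) : S.L (X + Y) (jn X Y) :=
  S.L2 (pdbl Primrec.id) (pdbl1 Primrec.id) (fun p => xor p.1 p.2) fun n => by
    rw [id, jn_even, jn_odd]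
    rfl

theorem Lsh (X : Om) : S.L (sh X) X :=
  S.L2 (Primrec₂.natPair.comp pu1 (Primrec.succ.comp pu2)) Primrec.id Prod.fst fun _ => rfl

theorem Ltens (r a : Om) : S.L (tens r a) (jn r a) :=
  S.L2 (pdbl pu1) (pdbl1 pu2) (fun p => p.1 && p.2) fun n => by
    rw [jn_even, jn_odd]
    rfl

theorem Lspread (a : Om) : S.L (spread a) a :=
  S.tt Nat.sqrt Nat.sqrt (fun p => (Nat.sqrt p.1 * Nat.sqrt p.1 == p.1) && p.2.1)
    Primrec.nat_sqrt Primrec.nat_sqrt (Primrec.and.comp (Primrec.beq.comp (Primrec.nat_mul.comp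
      (Primrec.nat_sqrt.comp Primrec.fst) (Primrec.nat_sqrt.comp Primrec.fst)) Primrec.fst)
      (Primrec.fst.comp Primrec.snd)) a

variable {S} in
theorem Llub {X Y Z : Om} (h : S.L X Z) (h' : S.L Y Z) : S.L (jn X Y) Z :=
  le.trans (S.hj X Y) (lub h h')

/-- `a` can be read off a real which shows its bits or their negations -/
def Dec (a : Om) : Prop := ∀ (Z : Om) (c : Bool) (K : ℕ) (q : ℕ → ℕ), Primrec q →
  (∀ k, K ≤ k → a k = xor (Z (q k)) c) → S.le a Z

/-- There is a real whose columns are independent. -/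
theorem indep : ∃ A : Om, ∀ n, ¬ S.le (col n A) (delCol n A) := by
  refine (dense_of_mem_residual (eventually_countable_forall.2 fun n => ?_)).nonempty
  have cc : Continuous fun A : Om => (col n A, delCol n A) :=
    (continuous_pi fun _ => continuous_apply _).prodMk (continuous_pi fun m => by
      unfold delCol
      split_ifs
      exacts [continuous_const, continuous_apply _])
  obtain ⟨U, hU, h⟩ := exists_open_eq (cc.measurable S.meas)
  have ct : Continuous fun x : Om => fun m : ℕ => decide (m.unpair.1 = n) && x m.unpair.2 :=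
    continuous_pi fun m => (continuous_of_discreteTopology (f := fun b : Bool =>
      decide (m.unpair.1 = n) && b)).comp (continuous_apply _)
  filter_upwards [h, kuratowski_ulam (residual_shear h ct)] with A h1 h2 h3
  obtain ⟨x, x1, x2, x3⟩ := exists_mem_of_not_isMeagre
    (not_isMeagre_of_isOpen (hU.preimage (continuous_const.add ct))
      ⟨0, show A + (fun m : ℕ => decide (m.unpair.1 = n) && (0 : Om) m.unpair.2) ∈ U by
        rw [show (fun m : ℕ => decide (m.unpair.1 = n) && (0 : Om) m.unpair.2) = 0 from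
          funext fun _ => Bool.and_false _, add_zero]
        exact h1.1 h3⟩)
    (h2.and (isMeagre_of_countable ((S.ctble (delCol n A)).preimage
      (add_right_injective (col n A)))))
  refine x3 ?_
  have k := x2.2 x1
  have e1 : col n (A + fun m : ℕ => decide (m.unpair.1 = n) && x m.unpair.2) = col n A + x :=
    funext fun m => by simp [col]
  have e2 : delCol n (A + fun m : ℕ => decide (m.unpair.1 = n) && x m.unpair.2) = delCol n A :=
    funext fun m => by
      by_cases hm : m.unpair.1 = n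
      · simp only [delCol, if_pos hm]
      · simp only [delCol, if_neg hm, Om.add_apply, decide_eq_false hm, Bool.false_and,
          Bool.xor_false]
  rw [Set.mem_preimage, Set.mem_ofPred_eq, e1, e2] at k
  exact k

end Sys

/-- A presentation of an isomorphism of degree structures by functions on reals. -/
structure Iso (S T : Sys) where
  /-- the map -/
  f : Om → Om
  /-- its inverse -/
  g : Om → Om
  f_le : ∀ X Y, S.le X Y ↔ T.le (f X) (f Y)
  g_le : ∀ X Y, T.le X Y ↔ S.le (g X) (g Y)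
  fg : ∀ X, T.le (f (g X)) X ∧ T.le X (f (g X))
  gf : ∀ X, S.le (g (f X)) X ∧ S.le X (g (f X))

namespace Iso

variable {S T : Sys} (π : Iso S T)

/-- The inverse. -/
def symm : Iso T S := ⟨π.g, π.f, π.g_le, π.f_le, π.gf, π.fg⟩

theorem g_iff (X Y : Om) : S.le (π.g X) Y ↔ T.le X (π.f Y) :=
  ⟨fun h => (π.fg X).2.trans ((π.f_le _ _).1 h), fun h => ((π.g_le _ _).1 h).trans (π.gf Y).1⟩

theorem g_jn (X Y : Om) : S.le (π.g (jn X Y)) (jn (π.g X) (π.g Y)) :=
  (π.g_iff _ _).2 (Sys.lub ((π.g_iff _ _).1 (S.left _ _)) ((π.g_iff _ _).1 (S.right _ _)))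

/-- the map on the total copies -/
def φ (X : Om) : Om := π.f (S.hat X)

theorem φ_le {X Y : Om} (h : S.L X Y) : T.le (π.φ X) (π.φ Y) := (π.f_le _ _).1 h

theorem φ_jn {X Y Z : Om} (h : S.L X (jn Y Z)) : T.le (π.φ X) (jn (π.φ Y) (π.φ Z)) :=
  ((π.f_le _ _).1 (Sys.le.trans h (S.hj Y Z))).trans (π.symm.g_jn _ _)

theorem exists_borel : ∃ F : S.ι → Om → Om, (∀ i, Measurable (F i)) ∧
    ∀ᶠ Y in residual Om, ∃ i, F i Y = π.φ Y := by
  classical
  obtain ⟨A, hA⟩ := T.indep
  refine ⟨fun i Y n => decide (S.le (π.g (col n A)) (S.ev i (jn (π.g A) (S.hat Y)))),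
    fun i => measurable_pi_iff.2 fun n => measurable_to_bool ?_, ?_⟩
  · have := (measurable_const (a := π.g (col n A))).prodMk ((S.mev i).comp (measurable_jn.comp
      ((measurable_const (a := π.g A)).prodMk S.mhat))) S.meas
    simpa [Set.preimage] using this
  filter_upwards [eventually_countable_forall.2 fun n => show ∀ᶠ Y in residual Om,
    ¬ S.le (π.g (col n A)) (jn (π.g (delCol n A)) (S.hat Y)) from
      by_contra fun h => hA n ((π.g_le _ _).2 (S.cone _ _ h))] with Y hY
  have gh : ∀ B, S.le (π.g (jn (π.φ Y) B)) (jn (π.g B) (S.hat Y)) := fun B =>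
    (π.g_jn _ _).trans ((S.comm _ _).trans (Sys.mono (S.refl _) (π.gf _).1))
  obtain ⟨i, hi⟩ := ((π.g_le _ _).1 (T.sel (π.φ Y) A)).trans (gh A)
  refine ⟨i, funext fun n => ?_⟩
  simp only [S.ev_eq _ _ _ hi, ← π.g_le]
  cases hb : π.φ Y n
  · refine decide_eq_false fun hr => hY n (((π.g_le _ _).1 (hr.trans ?_)).trans (gh _))
    rw [show selCols (π.φ Y) A = selCols (π.φ Y) (delCol n A) from funext fun m => by
      by_cases hm : m.unpair.1 = n <;> simp [selCols, delCol, hm, hb]]
    exact T.sel _ _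
  · refine decide_eq_true ?_
    rw [show col n A = col n (selCols (π.φ Y) A) from funext fun m => by simp [col, selCols, hb]]
    exact T.col_le _ _

theorem fibre (Y : Om) : {X | π.φ X = π.φ Y}.Countable :=
  ((S.ctble (S.hat Y)).biUnion fun Z _ => S.fhat Z).mono fun X hX =>
    Set.mem_biUnion (show S.hat X ∈ {Z | S.le Z (S.hat Y)} from (π.f_le _ _).2 (by
      rw [show π.f (S.hat X) = π.f (S.hat Y) from hX]
      exact T.refl _)) rfl

end Iso

theorem reading (F : Om → Om) (hF : Measurable F) (f : Om → Om) (hf : ∀ Y, {X | f X = f Y}.Countable)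
    (a : Om) (ha : a ≠ 0) : ∀ᶠ W in residual Om, ∀ᶠ r in residual Om, ∀ J,
      F (W + tens r a) = f (W + tens r a) →
      (∀ σ, pre r J <+: σ → ¬ IsMeagre ({r | F (W + tens r a) = f (W + tens r a)} ∩ cyl σ)) →
      ∃ g, J ≤ g.unpair.1 ∧ ∃ k, F (W + tens r a + unit g) k ≠ F (W + tens r a) k := by
  classical
  let N : ℕ → Set Om := fun J => {X | ∀ g, J ≤ g.unpair.1 → F (X + unit g) = F X}
  have hN : ∀ J, MeasurableSet (N J) := by
    intro J
    have : N J = ⋂ g : ℕ, {X : Om | J ≤ g.unpair.1 → F (X + unit g) = F X} := by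
      ext X; simp only [Set.mem_ofPred_eq, Set.mem_iInter, N]
    rw [this]
    refine MeasurableSet.iInter fun g => ?_
    by_cases hg : J ≤ g.unpair.1
    · simp only [hg, true_imp_iff]
      have m1 : Measurable (fun X : Om => X + unit g) := by fun_prop
      exact measurableSet_eq_fun (hF.comp m1) hF
    · simp only [hg, false_imp_iff]
      exact MeasurableSet.univ
  have R1 : ∀ᶠ X in residual Om, ∀ J, X ∈ N J → ∃ n, Forces (pre X n) (N J) := by
    rw [eventually_countable_forall]; intro J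
    obtain ⟨U, hU, h⟩ := exists_open_eq (hN J)
    filter_upwards [h] with X hX hXN
    obtain ⟨n, hn⟩ := exists_pre_subset hU (hX.1 hXN)
    refine ⟨n, ?_⟩
    unfold Forces
    rw [pre_length]
    filter_upwards [h] with X' hX' hp
    exact hX'.2 (hn X' hp)
  have R1' : ∀ᶠ X in residual Om, ∀ J σ, Forces σ (N J) → pre X σ.length = σ → X ∈ N J := by
    rw [eventually_countable_forall]; intro J
    exact residual_forced (N J)
  have R3 : ∀ᶠ X in residual Om, ∀ k, ∃ n, Forces (pre X n) {X' | F X' k = F X k} := by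
    filter_upwards [generic_continuity hF] with X hX k
    obtain ⟨n, hn⟩ := hX k
    refine ⟨n, ?_⟩
    unfold Forces
    rw [pre_length]
    exact hn
  have R3' : ∀ᶠ X in residual Om, ∀ k (b : Bool) σ, Forces σ {X' | F X' k = b} →
      pre X σ.length = σ → F X k = b := by
    rw [eventually_countable_forall]; intro k
    rw [eventually_countable_forall]; intro b
    exact residual_forced {X' | F X' k = b}
  have hct : Continuous (fun r : Om => tens r a) := continuous_tens_left a
  have C1 := kuratowski_ulam (residual_shear R1 hct)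
  have C2 : ∀ᶠ q in residual (Om × Om), ∀ s : Finset ℕ,
      (∀ J σ, Forces σ (N J) → pre (q.1 + tens q.2 a + fz s) σ.length = σ →
        q.1 + tens q.2 a + fz s ∈ N J) ∧
      (∀ k (b : Bool) σ, Forces σ {X' | F X' k = b} →
        pre (q.1 + tens q.2 a + fz s) σ.length = σ → F (q.1 + tens q.2 a + fz s) k = b) := by
    rw [eventually_countable_forall]; intro s
    have hu : Continuous (fun r : Om => tens r a + fz s) := hct.add continuous_const
    filter_upwards [residual_shear R1' hu, residual_shear R3' hu] with q h1 h2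
    simp only [← add_assoc] at h1 h2
    exact ⟨h1, h2⟩
  have C2' := kuratowski_ulam C2
  have C3 := kuratowski_ulam (residual_shear R3 hct)
  filter_upwards [C1, C2', C3] with W h1 h2 h3
  filter_upwards [h1, h2] with r k1 k2 J hFf hnm
  by_contra hcon
  push Not at hcon
  set X0 : Om := W + tens r a with hX0
  have hX0N : X0 ∈ N J := fun g hg => funext fun k => hcon g hg k
  obtain ⟨n0, hn0⟩ := k1 J hX0N
  set p : ℕ := max n0 J with hp
  have hcount : ∀ᶠ r'' in residual Om, ¬ f (W + tens r'' a) = f X0 := by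
    have hc : {r'' : Om | f (W + tens r'' a) = f X0}.Countable := by
      have hinj : Function.Injective (fun r'' : Om => W + tens r'' a) := by
        intro x y hxy
        exact tens_inj ha (add_left_cancel hxy)
      exact (hf X0).preimage_of_injOn (f := fun r'' : Om => W + tens r'' a)
        hinj.injOn
    exact isMeagre_of_countable hc
  obtain ⟨r'', ⟨hS, hcyl⟩, hnr, h3r⟩ :=
    exists_mem_of_not_isMeagre (hnm (pre r p) (pre_prefix r (le_max_right _ _)))
      (hcount.and h3)
  apply hnr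
  change F (W + tens r'' a) = f (W + tens r'' a) at hS
  rw [← hS, ← hFf]
  have hagree : ∀ i < p, r'' i = r i := by
    have h0 : pre r'' (pre r p).length = pre r p := hcyl
    rw [pre_length] at h0
    exact (pre_eq_iff _ _ _).1 h0
  set D : Om := tens (r + r'') a with hD
  have hX'' : W + tens r'' a = X0 + D := by
    rw [hD, tens_add, hX0]
    have : W + tens r a + (tens r a + tens r'' a) = W + tens r'' a + (tens r a + tens r a) := by abel
    rw [this, om_add_self, add_zero]
  have hDlow : ∀ i, D i = true → p ≤ i.unpair.1 ∧ p ≤ i := by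
    intro i hi
    have h4 : (r + r'') i.unpair.1 = true := by
      have : ((r + r'') i.unpair.1 && a i.unpair.2) = true := hi
      rw [Bool.and_eq_true] at this
      exact this.1
    have h5 : ¬ i.unpair.1 < p := by
      intro hlt
      rw [Om.add_apply, hagree _ hlt] at h4
      simp at h4
    have h6 : i.unpair.1 ≤ i := Nat.unpair_left_le i
    omega
  let s : ℕ → Finset ℕ := fun i => (Finset.range i).filter (fun q => D q = true)
  have hs : ∀ i q, fz (s i) q = (decide (q < i) && D q) := by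
    intro i q
    simp only [fz, s, Finset.mem_filter, Finset.mem_range]
    by_cases h1 : q < i <;> cases h2 : D q <;> simp [h1]
  have hpre0 : ∀ i, pre (X0 + fz (s i)) n0 = pre X0 n0 := by
    intro i
    rw [pre_eq_iff]; intro q hq
    rw [Om.add_apply, hs]
    have : D q = false := by
      by_contra hne
      have h7 := (hDlow q (by simpa using hne)).2
      omega
    rw [this]; simp
  have hstep : ∀ i, F (X0 + fz (s i)) = F X0 := by
    intro i
    induction i with
    | zero =>
      have : fz (s 0) = 0 := by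
        funext q; rw [hs]; simp; rfl
      rw [this, add_zero]
    | succ i ih =>
      by_cases hDi : D i = true
      · have e : fz (s (i + 1)) = fz (s i) + unit i := by
          funext q
          rw [Om.add_apply, hs, hs]
          simp only [unit]
          by_cases hq : q = i
          · subst hq; simp [hDi]
          · have : (q < i + 1) ↔ q < i := by omega
            simp [hq, this]
        rw [e, ← add_assoc, ← ih]
        have hm : X0 + fz (s i) ∈ N J := (k2 (s i)).1 J _ hn0 (by rw [pre_length]; exact hpre0 i)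
        exact hm i (le_trans (le_max_right _ _) (hDlow i hDi).1)
      · have e : fz (s (i + 1)) = fz (s i) := by
          funext q
          rw [hs, hs]
          by_cases hq : q = i
          · subst hq; simp [hDi]
          · have : (q < i + 1) ↔ q < i := by omega
            simp [this]
        rw [e]; exact ih
  funext k
  obtain ⟨n, hn⟩ := h3r k
  change Forces (pre (W + tens r'' a) n) {X' | F X' k = F (W + tens r'' a) k} at hn
  have h8 := (k2 (s n)).2 k _ _ hn (by
    rw [pre_length, pre_eq_iff]; intro q hq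
    rw [hX'', Om.add_apply, Om.add_apply, hs]; simp [hq])
  rw [← h8]
  exact congrFun (hstep n) k


theorem Iso.main {S T : Sys} (π : Iso S T) (a : Om) (ha : a ≠ 0) (hd : T.Dec a) :
    S.le (π.g a) (S.hat a) := by
  by_contra hcon
  obtain ⟨F, hF, hrep⟩ := π.exists_borel
  set ah : Om := spread a with hah
  have hah0 : ah ≠ 0 := spread_ne_zero ha
  let Rt : (S.ι × S.ι × S.ι) × (S.ι × T.ι × T.ι) → Set (Om × Om) := fun t =>
    {p | T.M t.2.2.1 (jn (F t.1.1 p.1) (F t.1.2.1 p.2)) (F t.1.2.2 (sh p.1 + p.2)) ∧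
      T.M t.2.2.2 (jn (F t.1.2.2 (sh p.1 + p.2)) (F t.2.1 (sh p.1 + p.2 + p.1)))
        (F t.1.1 p.1)}
  have hsh : Measurable sh := continuous_sh.measurable
  have hRt : ∀ t, MeasurableSet (Rt t) := by
    intro t
    have m1 : Measurable (fun p : Om × Om => sh p.1 + p.2) := by fun_prop
    have m2 : Measurable (fun p : Om × Om => sh p.1 + p.2 + p.1) := by fun_prop
    refine MeasurableSet.inter ?_ ?_
    · have hm : Measurable (fun p : Om × Om =>
          (jn (F t.1.1 p.1) (F t.1.2.1 p.2), F t.1.2.2 (sh p.1 + p.2))) := by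
        refine Measurable.prodMk ?_ ((hF _).comp m1)
        exact measurable_jn.comp (((hF _).comp measurable_fst).prodMk ((hF _).comp measurable_snd))
      exact hm (T.mM t.2.2.1)
    · have hm : Measurable (fun p : Om × Om =>
          (jn (F t.1.2.2 (sh p.1 + p.2)) (F t.2.1 (sh p.1 + p.2 + p.1)), F t.1.1 p.1)) := by
        refine Measurable.prodMk ?_ ((hF _).comp measurable_fst)
        exact measurable_jn.comp (((hF _).comp m1).prodMk ((hF _).comp m2))
      exact hm (T.mM t.2.2.2)
  -- types exist generically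
  have H1 : ∀ᶠ p in residual (Om × Om), ∃ t, F t.1.1 p.1 = π.φ p.1 ∧ F t.1.2.1 p.2 = π.φ p.2 ∧
      F t.2.1 (sh p.1 + p.2 + p.1) = π.φ (sh p.1 + p.2 + p.1) ∧ p ∈ Rt t := by
    filter_upwards [residual_fst (Y := Om) hrep, residual_snd (X := Om) hrep, residual_shadd hrep,
      residual_shadd' hrep] with p h1 h2 h3 h4
    obtain ⟨c, hc⟩ := h1
    obtain ⟨a0, ha0⟩ := h2
    obtain ⟨b, hb⟩ := h3
    obtain ⟨d, hd'⟩ := h4
    have r1 : T.le (F b (sh p.1 + p.2)) (jn (F c p.1) (F a0 p.2)) := by
      rw [hb, hc, ha0]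
      exact π.φ_jn (Sys.le.trans (S.Ladd _ _)
        (Sys.Llub (Sys.le.trans (S.Lsh _) (S.Ll _ _)) (S.Lr _ _)))
    have r2 : T.le (F c p.1) (jn (F b (sh p.1 + p.2)) (F d (sh p.1 + p.2 + p.1))) := by
      rw [hb, hc, hd']
      refine π.φ_jn ?_
      have := S.Ladd (sh p.1 + p.2) (sh p.1 + p.2 + p.1)
      rwa [← add_assoc, om_add_self, zero_add] at this
    obtain ⟨e, he⟩ := r1
    obtain ⟨e', he'⟩ := r2
    exact ⟨((c, a0, b), (d, e, e')), hc, ha0, hd', he, he'⟩
  have H2 : ∀ᶠ p in residual (Om × Om), ∀ t, p ∈ Rt t → ∃ n, Forces₂ (pre p.1 n) (pre p.2 n) (Rt t) := by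
    rw [eventually_countable_forall]; intro t
    filter_upwards [generic_rel (hRt t)] with p hp hpt
    obtain ⟨n, hn⟩ := hp hpt
    refine ⟨n, ?_⟩
    unfold Forces₂
    simpa only [pre_length] using hn
  have H2' : ∀ᶠ p in residual (Om × Om), ∀ t σ τ, Forces₂ σ τ (Rt t) →
      pre p.1 σ.length = σ → pre p.2 τ.length = τ → p ∈ Rt t := by
    rw [eventually_countable_forall]; intro t
    exact residual_forced₂ (Rt t)
  have H3 : ∀ᶠ X in residual Om, ∀ c k, ∃ n, Forces (pre X n) {X' | F c X' k = F c X k} := by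
    rw [eventually_countable_forall]; intro c
    filter_upwards [generic_continuity (hF c)] with X hX k
    obtain ⟨n, hn⟩ := hX k
    refine ⟨n, ?_⟩
    unfold Forces
    rw [pre_length]
    exact hn
  have H3' : ∀ᶠ X in residual Om, ∀ c k (b : Bool) σ, Forces σ {X' | F c X' k = b} →
      pre X σ.length = σ → F c X k = b := by
    rw [eventually_countable_forall]; intro c
    rw [eventually_countable_forall]; intro k
    rw [eventually_countable_forall]; intro b
    exact residual_forced {X' | F c X' k = b}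
  have H5 : ∀ᶠ q in residual ((Om × Om) × (Om × Om)),
      ¬ S.le (π.g a) (jn (S.hat a) (S.hat (jn (jn q.1.1 q.1.2) (jn q.2.1 q.2.2)))) := by
    have h0 : ∀ᶠ s in residual Om, ¬ S.le (π.g a) (jn (S.hat a) (S.hat s)) := by
      by_contra hne
      exact hcon (S.cone _ _ hne)
    have h1 := residual_jn h0
    exact residual_comp_open (X := (Om × Om) × (Om × Om)) (Y := Om × Om)
      (f := Prod.map (fun p : Om × Om => jn p.1 p.2) (fun p : Om × Om => jn p.1 p.2))
      (continuous_jn.prodMap continuous_jn) (jnHomeo.isOpenMap.prodMap jnHomeo.isOpenMap) h1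
  -- generic choices
  have A1 : ∀ᶠ q in residual ((Om × Om) × (Om × Om)), ∀ n t σ τ, Forces₂ σ τ (Rt t) →
      pre (q.1.1 + tens q.2.1 ah + tens (q.2.1 + q.2.2) (shift n ah)) σ.length = σ →
      pre q.1.2 τ.length = τ →
      (q.1.1 + tens q.2.1 ah + tens (q.2.1 + q.2.2) (shift n ah), q.1.2) ∈ Rt t := by
    rw [eventually_countable_forall]; intro n
    have hu : Continuous (fun r : Om × Om =>
        ((tens r.1 ah + tens (r.1 + r.2) (shift n ah), (0 : Om)) : Om × Om)) := by
      refine Continuous.prodMk ?_ continuous_const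
      exact ((continuous_tens_left ah).comp continuous_fst).add
        ((continuous_tens_left (shift n ah)).comp (continuous_fst.add continuous_snd))
    filter_upwards [residual_shear H2' hu] with q hq t σ τ hf h1 h2
    have := hq t σ τ hf
    simp only [Prod.fst_add, Prod.snd_add, add_zero, ← add_assoc] at this
    have h3 := this h1 h2
    have e : (q.1.1 + tens q.2.1 ah + tens (q.2.1 + q.2.2) (shift n ah), q.1.2)
      = q.1 + (tens q.2.1 ah + tens (q.2.1 + q.2.2) (shift n ah), (0 : Om)) := by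
      ext1 <;> simp [add_assoc]
    rw [e]; exact h3
  have A2 : ∀ᶠ q in residual ((Om × Om) × (Om × Om)), ∀ n t σ τ, Forces₂ σ τ (Rt t) →
      pre (q.1.1 + tens q.2.1 ah + tens (q.2.1 + q.2.2) (shift n ah)) σ.length = σ →
      pre (q.1.2 + tens (q.2.1 + q.2.2) (shift n ah) + tens (q.2.1 + q.2.2) (shift (n + 1) ah))
        τ.length = τ →
      (q.1.1 + tens q.2.1 ah + tens (q.2.1 + q.2.2) (shift n ah),
        q.1.2 + tens (q.2.1 + q.2.2) (shift n ah) + tens (q.2.1 + q.2.2) (shift (n + 1) ah))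
        ∈ Rt t := by
    rw [eventually_countable_forall]; intro n
    have hu : Continuous (fun r : Om × Om =>
        ((tens r.1 ah + tens (r.1 + r.2) (shift n ah),
          tens (r.1 + r.2) (shift n ah) + tens (r.1 + r.2) (shift (n + 1) ah)) : Om × Om)) := by
      refine Continuous.prodMk ?_ ?_
      · exact ((continuous_tens_left ah).comp continuous_fst).add
          ((continuous_tens_left (shift n ah)).comp (continuous_fst.add continuous_snd))
      · exact ((continuous_tens_left (shift n ah)).comp (continuous_fst.add continuous_snd)).add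
          ((continuous_tens_left (shift (n + 1) ah)).comp (continuous_fst.add continuous_snd))
    filter_upwards [residual_shear H2' hu] with q hq t σ τ hf h1 h2
    have := hq t σ τ hf
    simp only [Prod.fst_add, Prod.snd_add, ← add_assoc] at this
    have h3 := this h1 h2
    have e : (q.1.1 + tens q.2.1 ah + tens (q.2.1 + q.2.2) (shift n ah),
        q.1.2 + tens (q.2.1 + q.2.2) (shift n ah) + tens (q.2.1 + q.2.2) (shift (n + 1) ah))
      = q.1 + (tens q.2.1 ah + tens (q.2.1 + q.2.2) (shift n ah),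
        tens (q.2.1 + q.2.2) (shift n ah) + tens (q.2.1 + q.2.2) (shift (n + 1) ah)) := by
      ext1 <;> simp [add_assoc]
    rw [e]; exact h3
  have A3 : ∀ᶠ q in residual ((Om × Om) × (Om × Om)), ∀ n c k (b : Bool) σ,
      Forces σ {X' | F c X' k = b} →
      pre (q.1.1 + tens q.2.1 ah + tens (q.2.1 + q.2.2) (shift n ah)) σ.length = σ →
      F c (q.1.1 + tens q.2.1 ah + tens (q.2.1 + q.2.2) (shift n ah)) k = b := by
    rw [eventually_countable_forall]; intro n
    have hu : Continuous (fun r : Om × Om =>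
        ((tens r.1 ah + tens (r.1 + r.2) (shift n ah), (0 : Om)) : Om × Om)) := by
      refine Continuous.prodMk ?_ continuous_const
      exact ((continuous_tens_left ah).comp continuous_fst).add
        ((continuous_tens_left (shift n ah)).comp (continuous_fst.add continuous_snd))
    filter_upwards [residual_shear (residual_fst (Y := Om) H3') hu] with q hq c k b σ hf h1
    have := hq c k b σ hf
    simp only [Prod.fst_add, ← add_assoc] at this
    exact this h1
  have B : ∀ᶠ q in residual ((Om × Om) × Om),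
      (∃ t, F t.1.1 (q.1.1 + tens q.2 ah) = π.φ (q.1.1 + tens q.2 ah) ∧ F t.1.2.1 q.1.2 = π.φ q.1.2 ∧
        F t.2.1 (sh (q.1.1 + tens q.2 ah) + q.1.2 + (q.1.1 + tens q.2 ah)) =
          π.φ (sh (q.1.1 + tens q.2 ah) + q.1.2 + (q.1.1 + tens q.2 ah)) ∧
        (q.1.1 + tens q.2 ah, q.1.2) ∈ Rt t) ∧
      (∀ t, (q.1.1 + tens q.2 ah, q.1.2) ∈ Rt t →
        ∃ n, Forces₂ (pre (q.1.1 + tens q.2 ah) n) (pre q.1.2 n) (Rt t)) := by
    have hu : Continuous (fun r : Om => ((tens r ah, (0 : Om)) : Om × Om)) :=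
      (continuous_tens_left ah).prodMk continuous_const
    filter_upwards [residual_shear H1 hu, residual_shear H2 hu] with q h1 h2
    have e : q.1 + (tens q.2 ah, (0 : Om)) = (q.1.1 + tens q.2 ah, q.1.2) := by
      ext1 <;> simp
    rw [e] at h1 h2
    exact ⟨h1, h2⟩
  have B3 : ∀ᶠ q in residual ((Om × Om) × Om), ∀ g c k, ∃ n,
      Forces (pre (q.1.1 + tens q.2 ah + unit g) n)
        {X' | F c X' k = F c (q.1.1 + tens q.2 ah + unit g) k} := by
    rw [eventually_countable_forall]; intro g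
    have hu : Continuous (fun r : Om => ((tens r ah + unit g, (0 : Om)) : Om × Om)) :=
      ((continuous_tens_left ah).add continuous_const).prodMk continuous_const
    filter_upwards [residual_shear (residual_fst (Y := Om) H3) hu] with q h1
    simpa only [Prod.fst_add, ← add_assoc] using h1
  have B3' : ∀ᶠ q in residual ((Om × Om) × Om), ∀ c k, ∃ n,
      Forces (pre (q.1.1 + tens q.2 ah) n)
        {X' | F c X' k = F c (q.1.1 + tens q.2 ah) k} := by
    have hu : Continuous (fun r : Om => ((tens r ah, (0 : Om)) : Om × Om)) :=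
      (continuous_tens_left ah).prodMk continuous_const
    filter_upwards [residual_shear (residual_fst (Y := Om) H3) hu] with q h1
    simpa only [Prod.fst_add, ← add_assoc] using h1
  have hread : ∀ᶠ W in residual Om, ∀ c, ∀ᶠ r in residual Om, ∀ J,
      F c (W + tens r ah) = π.φ (W + tens r ah) →
      (∀ σ, pre r J <+: σ →
        ¬ IsMeagre ({r | F c (W + tens r ah) = π.φ (W + tens r ah)} ∩ cyl σ)) →
      ∃ g, J ≤ g.unpair.1 ∧ ∃ k, F c (W + tens r ah + unit g) k ≠ F c (W + tens r ah) k := by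
    rw [eventually_countable_forall]; intro c
    exact reading (F c) (hF c) π.φ π.fibre ah hah0
  have KU1 := kuratowski_ulam (A1.and (A2.and (A3.and H5)))
  have KU2 := kuratowski_ulam (B.and (B3.and B3'))
  obtain ⟨⟨W, Y⟩, hKU1, hKU2, hrd⟩ :=
    (dense_of_mem_residual (KU1.and (KU2.and (residual_fst (Y := Om) hread)))).nonempty
  have hloc : ∀ᶠ r in residual Om, ∀ c, r ∈ {r | F c (W + tens r ah) = π.φ (W + tens r ah)} →
      ∃ n, ∀ σ : List Bool, pre r n <+: σ →
        ¬ IsMeagre ({r | F c (W + tens r ah) = π.φ (W + tens r ah)} ∩ cyl σ) := by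
    rw [eventually_countable_forall]; intro c
    exact everywhere_nonmeagre _
  have hrd' : ∀ᶠ r in residual Om, ∀ c, ∀ J,
      F c (W + tens r ah) = π.φ (W + tens r ah) →
      (∀ σ, pre r J <+: σ →
        ¬ IsMeagre ({r | F c (W + tens r ah) = π.φ (W + tens r ah)} ∩ cyl σ)) →
      ∃ g, J ≤ g.unpair.1 ∧ ∃ k, F c (W + tens r ah + unit g) k ≠ F c (W + tens r ah) k := by
    rw [eventually_countable_forall]; intro c
    exact hrd c
  obtain ⟨r, hr1, hr2, hr3, hr4⟩ :=
    (dense_of_mem_residual ((kuratowski_ulam hKU1).and (hKU2.and (hloc.and hrd')))).nonempty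
  obtain ⟨⟨⟨t, hSc, hSa, hSd, htR⟩, hloc2⟩, hC1, hC2⟩ := hr2
  -- the data
  set X0 : Om := W + tens r ah with hX0
  change F t.1.1 X0 = π.φ X0 at hSc
  obtain ⟨n1, hn1⟩ := hloc2 t htR
  obtain ⟨n2, hn2⟩ := hr3 t.1.1 hSc
  set J : ℕ := max n1 n2 with hJ
  have hJ1 : n1 ≤ J := le_max_left _ _
  have hJ2 : n2 ≤ J := le_max_right _ _
  have hnm : ∀ σ : List Bool, pre r J <+: σ →
      ¬ IsMeagre ({r | F t.1.1 (W + tens r ah) = π.φ (W + tens r ah)} ∩ cyl σ) :=
    fun σ hσ => hn2 σ ((pre_prefix r hJ2).trans hσ)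
  obtain ⟨g, hg, k0, hk0⟩ := hr4 t.1.1 J hSc hnm
  obtain ⟨n3, hn3⟩ := hC2 t.1.1 k0
  obtain ⟨n4, hn4⟩ := hC1 g t.1.1 k0
  set js : ℕ := g.unpair.1 with hjs
  set ss : ℕ := g.unpair.2 with hss
  have hgp : Nat.pair js ss = g := Nat.pair_unpair g
  set m : ℕ := max (max n3 n4) (max (g + 1) J) with hm
  have hm3 : n3 ≤ m := by omega
  have hm4 : n4 ≤ m := by omega
  have hmg : g < m := by omega
  have hmJ : J ≤ m := by omega
  have hjsg : js ≤ g := Nat.unpair_left_le g
  have hpreσ : pre r J <+: pre (r + unit js) m := by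
    have : pre r J = pre (r + unit js) J := by
      rw [pre_eq_iff]; intro i hi
      have hne : i ≠ js := by omega
      rw [Om.add_apply]; simp [unit, hne]
    rw [this]; exact pre_prefix _ hmJ
  obtain ⟨r', ⟨hr'S, hr'c⟩, hr'1, hr'2, hr'3, hr'4⟩ :=
    exists_mem_of_not_isMeagre (hnm _ hpreσ) hr1
  change F t.1.1 (W + tens r' ah) = π.φ (W + tens r' ah) at hr'S
  have hr'c' : ∀ i < m, r' i = (r + unit js) i := by
    have : pre r' m = pre (r + unit js) m := by
      have h0 : pre r' (pre (r + unit js) m).length = pre (r + unit js) m := hr'c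
      simpa only [pre_length] using h0
    exact (pre_eq_iff _ _ _).1 this
  set v : Om := r + r' with hv
  have hvj : ∀ j < m, v j = decide (j = js) := by
    intro j hj
    rw [hv, Om.add_apply, hr'c' j hj, Om.add_apply]
    simp only [unit]
    cases r j <;> simp
  set z : ℕ → Om := fun n => tens v (shift n ah) with hz
  have hzsh : ∀ n, sh (z n) = z (n + 1) := fun n => sh_tens v ah n
  have hzlow : ∀ n, ∀ p < J, z n p = false := by
    intro n p hp
    have h1 : p.unpair.1 ≤ p := Nat.unpair_left_le p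
    show (v p.unpair.1 && shift n ah p.unpair.2) = false
    rw [hvj _ (by omega)]
    have : p.unpair.1 ≠ js := by omega
    simp [this]
  have hpre1 : ∀ n, pre (X0 + z n) n1 = pre X0 n1 := by
    intro n; rw [pre_eq_iff]; intro i hi
    rw [Om.add_apply, hzlow n i (by omega)]; simp
  have hpre2 : ∀ n, pre (Y + z n + z (n + 1)) n1 = pre Y n1 := by
    intro n; rw [pre_eq_iff]; intro i hi
    rw [Om.add_apply, Om.add_apply, hzlow n i (by omega), hzlow (n + 1) i (by omega)]; simp
  have hR1 : ∀ n, (X0 + z n, Y) ∈ Rt t := by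
    intro n
    refine hr'1 n t _ _ hn1 ?_ ?_
    · rw [pre_length]; exact hpre1 n
    · rw [pre_length]
  have hR2 : ∀ n, (X0 + z n, Y + z n + z (n + 1)) ∈ Rt t := by
    intro n
    refine hr'2 n t _ _ hn1 ?_ ?_
    · rw [pre_length]; exact hpre1 n
    · rw [pre_length]; exact hpre2 n
  set δ : Om := sh X0 + Y + X0 with hδ
  let G : ℕ → Om := fun n => F t.1.1 (X0 + z n)
  let M : ℕ → Om := fun n => F t.1.2.2 (sh X0 + z (n + 1) + Y)
  have e1 : ∀ n, sh (X0 + z n) + Y = sh X0 + z (n + 1) + Y := by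
    intro n; rw [sh_add, hzsh]
  have h1 : ∀ n, T.M t.2.2.1 (jn (G n) (F t.1.2.1 Y)) (M n) := by
    intro n
    have := (hR1 n).1
    change T.M t.2.2.1 (jn (F t.1.1 (X0 + z n)) (F t.1.2.1 Y))
      (F t.1.2.2 (sh (X0 + z n) + Y)) at this
    rw [e1] at this
    exact this
  have h2 : ∀ n, T.M t.2.2.2 (jn (M n) (F t.2.1 δ)) (G (n + 1)) := by
    intro n
    have := (hR2 (n + 1)).2
    change T.M t.2.2.2
      (jn (F t.1.2.2 (sh (X0 + z (n + 1)) + (Y + z (n + 1) + z (n + 1 + 1))))
        (F t.2.1 (sh (X0 + z (n + 1)) + (Y + z (n + 1) + z (n + 1 + 1)) + (X0 + z (n + 1)))))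
      (F t.1.1 (X0 + z (n + 1))) at this
    have e2 : sh (X0 + z (n + 1)) + (Y + z (n + 1) + z (n + 1 + 1)) = sh X0 + z (n + 1) + Y := by
      rw [sh_add, hzsh]
      have : sh X0 + z (n + 1 + 1) + (Y + z (n + 1) + z (n + 1 + 1))
        = sh X0 + z (n + 1) + Y + (z (n + 1 + 1) + z (n + 1 + 1)) := by abel
      rw [this, om_add_self, add_zero]
    have e3 : sh X0 + z (n + 1) + Y + (X0 + z (n + 1)) = δ := by
      have : sh X0 + z (n + 1) + Y + (X0 + z (n + 1))
        = sh X0 + Y + X0 + (z (n + 1) + z (n + 1)) := by abel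
      rw [this, om_add_self, add_zero]
    rw [e2, e3] at this
    exact this
  have hit := T.iter₂ G M (F t.1.2.1 Y) (F t.2.1 δ) h1 h2
  -- decoding
  have hdec : T.le a (ofCols G) := by
    refine hd _ (F t.1.1 X0 k0) m (fun k => Nat.pair (k * k - ss) k0)
      (Primrec₂.natPair.comp (Primrec.nat_sub.comp (Primrec.nat_mul.comp Primrec.id Primrec.id)
        (Primrec.const ss)) (Primrec.const k0)) fun k hk => ?_
    simp only [ofCols, Nat.unpair_pair]
    have hwin : ∀ p < m, z (k * k - ss) p = (decide (p = g) && a k) := by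
      intro p hp
      have := window (a := a) (v := v) (js := js) (ss := ss) (m := m) (by rw [hgp]; exact hmg)
        hvj hk hp
      rw [hgp] at this
      exact this
    show a k = xor (F t.1.1 (X0 + z (k * k - ss)) k0) (F t.1.1 X0 k0)
    cases hak : a k with
    | false =>
      have hp0 : pre (X0 + z (k * k - ss)) n3 = pre X0 n3 := by
        rw [pre_eq_iff]; intro i hi
        rw [Om.add_apply, hwin i (by omega), hak]; simp
      have := hr'3 (k * k - ss) t.1.1 k0 (F t.1.1 X0 k0) _ hn3 (by rw [pre_length]; exact hp0)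
      rw [show F t.1.1 (X0 + z (k * k - ss)) k0 = F t.1.1 X0 k0 from this]
      simp
    | true =>
      have hp0 : pre (X0 + z (k * k - ss)) n4 = pre (X0 + unit g) n4 := by
        rw [pre_eq_iff]; intro i hi
        rw [Om.add_apply, hwin i (by omega), hak, Om.add_apply]; simp [unit]
      have := hr'3 (k * k - ss) t.1.1 k0 (F t.1.1 (X0 + unit g) k0) _ hn4
        (by rw [pre_length]; exact hp0)
      rw [show F t.1.1 (X0 + z (k * k - ss)) k0 = F t.1.1 (X0 + unit g) k0 from this]
      revert hk0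
      cases F t.1.1 (X0 + unit g) k0 <;> cases F t.1.1 X0 k0 <;> simp
  have hfin : T.le a (jn (G 0) (jn (F t.1.2.1 Y) (F t.2.1 δ))) := hdec.trans hit
  have hG0 : G 0 = π.φ (W + tens r' ah) := by
    show F t.1.1 (X0 + z 0) = _
    have : X0 + z 0 = W + tens r' ah := by
      have hs0 : shift 0 ah = ah := rfl
      show W + tens r ah + tens (r + r') (shift 0 ah) = _
      rw [hs0, tens_add]
      have : W + tens r ah + (tens r ah + tens r' ah) = W + tens r' ah + (tens r ah + tens r ah) := by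
        abel
      rw [this, om_add_self, add_zero]
    rw [this]; exact hr'S
  rw [hG0, hSa, hSd] at hfin
  refine hr'4 (((π.g_iff _ _).2 (hfin.trans (Sys.lub (π.φ_le (S.Ll _ (jn Y δ)))
    (Sys.lub (π.φ_le (Sys.le.trans (S.Ll _ _) (S.Lr _ _)))
      (π.φ_le (Sys.le.trans (S.Lr _ _) (S.Lr _ _))))))).trans (Sys.le.trans ?_ (S.hj _ _)))
  have rW : S.L W (jn a (jn (jn W Y) (jn r r'))) :=
    (S.Ll _ _).trans ((S.Ll _ _).trans (S.Lr _ _))
  have rY : S.L Y (jn a (jn (jn W Y) (jn r r'))) :=
    (S.Lr _ _).trans ((S.Ll _ _).trans (S.Lr _ _))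
  have rr : S.L r (jn a (jn (jn W Y) (jn r r'))) :=
    (S.Ll _ _).trans ((S.Lr _ _).trans (S.Lr _ _))
  have rr' : S.L r' (jn a (jn (jn W Y) (jn r r'))) :=
    (S.Lr _ _).trans ((S.Lr _ _).trans (S.Lr _ _))
  have rah : S.L ah (jn a (jn (jn W Y) (jn r r'))) := (S.Lspread a).trans (S.Ll _ _)
  have rX0 : S.L X0 (jn a (jn (jn W Y) (jn r r'))) :=
    (S.Ladd _ _).trans (Sys.Llub rW ((S.Ltens _ _).trans (Sys.Llub rr rah)))
  have rX' : S.L (W + tens r' ah) (jn a (jn (jn W Y) (jn r r'))) :=
    (S.Ladd _ _).trans (Sys.Llub rW ((S.Ltens _ _).trans (Sys.Llub rr' rah)))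
  have rδ : S.L δ (jn a (jn (jn W Y) (jn r r'))) := (S.Ladd _ _).trans
    (Sys.Llub ((S.Ladd _ _).trans (Sys.Llub ((S.Lsh _).trans rX0) rY)) rX0)
  exact Sys.Llub rX' (Sys.Llub rY rδ)

namespace Sys

variable (S : Sys)

/-- The reducibility relative to `C`. -/
def rel (C : Om) : Sys where
  ι := S.ι
  M e Y X := S.M e (jn Y C) X
  hat := S.hat
  ev e Y := S.ev e (jn Y C)
  mM e := ((measurable_jn.comp (measurable_fst.prodMk measurable_const)).prodMk measurable_snd)
    (S.mM e)
  mev e := (S.mev e).comp (measurable_jn.comp (measurable_id.prodMk measurable_const))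
  ev_eq e _ _ := S.ev_eq e _ _
  mhat := S.mhat
  fhat := S.fhat
  comp e e' := by
    obtain ⟨r, hr⟩ := S.opr
    obtain ⟨u, hu⟩ := S.pair e r
    exact (S.comp u e').imp fun _ k _ _ _ h h' => k _ _ _ (hu _ _ _ h (hr _ _)) h'
  pair e e' := (S.pair e e').imp fun _ k _ _ _ => k _ _ _
  cj q r hq hr := by
    obtain ⟨l, hl⟩ := S.opl
    obtain ⟨u, hu⟩ := S.cj q r hq hr
    exact (S.comp l u).imp fun _ k _ => k _ _ _ (hl _ _) (hu _)
  iter _ G := S.iter₁ G C
  tt q r h hq hr hh Y := le.trans (S.tt q r h hq hr hh Y) (S.left _ _)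
  hj X Y := le.trans (S.hj X Y) (S.left _ _)
  cone A B h := S.cone (jn A C) B fun k => h (k.mono fun _ hs => le.trans hs
    (lub (mono (S.left _ _) (S.refl _)) ((S.right _ _).trans (S.left _ _))))

/-- Each real is determined by the decodable total reals above it. -/
def Base : Prop := ∀ X B C, (∀ a, a ≠ 0 → S.Dec a → S.le (S.hat a) a → S.le B a →
  S.le X (jn a C)) → S.le X (jn B C)

variable {S}

theorem below (hS : S.Base) {C D : Om} (π : Iso (S.rel C) (S.rel D)) (X : Om) :
    S.le (π.g X) (jn X C) :=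
  hS _ _ _ fun a ha hd h1 h2 => le.trans (S := S.rel C)
    ((π.g_le _ _).1 (h2.trans (S.left _ _))) (le.trans (S := S) (π.main a ha
      fun Z c K q hq h => (hd Z c K q hq h).trans (S.left _ _)) (mono h1 (S.refl _)))

theorem fix (hS : S.Base) (ρ : Om → Om → Prop)
    (h : ∀ {X Y X' Y'}, ρ X Y → ρ X' Y' → (S.le X X' ↔ S.le Y Y')) {C D : Om} (h0 : ρ C D)
    (hf : ∀ X, ∃ Y, ρ (jn X C) Y) (hg : ∀ Y, ∃ X, ρ X (jn Y D)) : S.le C D ∧ S.le D C := by
  choose f hf using hf
  choose g hg using hg
  have k : ∀ {X Y C}, S.le X (jn Y C) ↔ S.le (jn X C) (jn Y C) :=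
    ⟨fun h => lub h (S.right _ _), fun h => (S.left _ _).trans h⟩
  have k' : ∀ {X Y C}, S.le C Y → (S.le X Y ↔ S.le X (jn Y C)) := fun h =>
    ⟨fun h => h.trans (S.left _ _), fun h' => h'.trans (lub (S.refl _) h)⟩
  have fD : ∀ X, S.le D (f X) := fun X => (h h0 (hf X)).1 (S.right _ _)
  have gC : ∀ X, S.le C (g X) := fun X => (h h0 (hg X)).2 (S.right _ _)
  let π : Iso (S.rel C) (S.rel D) :=
    ⟨f, g, fun X Y => k.trans ((h (hf X) (hf Y)).trans (k' (fD Y))),
      fun X Y => k.trans ((h (hg X) (hg Y)).symm.trans (k' (gC Y))),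
      fun X => ⟨(h (hf _) (hg X)).1 (lub (S.refl _) (gC X)),
        ((S.left _ _).trans ((h (hg X) (hf _)).1 (S.left _ _))).trans (S.left _ _)⟩,
      fun X => ⟨(h (hg _) (hf X)).2 (lub (S.refl _) (fD X)),
        ((S.left _ _).trans ((h (hf X) (hg _)).2 (S.left _ _))).trans (S.left _ _)⟩⟩
  exact ⟨(S.left _ _).trans ((h (hg C) h0).1 ((below hS π C).trans (lub (S.refl _) (S.refl _)))),
    (S.left _ _).trans ((h (hf D) h0).2
      ((below hS π.symm D).trans (lub (S.refl _) (S.refl _))))⟩

end Sys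

end Vale.Agent.N327
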