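import Mathlib.Computability.RE
import Mathlib.Computability.TuringDegree

/-!
# Four reducibilities between sets of natural numbers, and their degrees
-/

namespace Vale.Agent.N327

open Classical in
/-- `bit A n` is `true` if `n ∈ A`, and `false` otherwise. -/
noncomputable def bit (A : Set ℕ) (n : ℕ) : Bool := decide (n ∈ A)

/-- The list of the first `m` bits of `B`. -/
noncomputable def seg (B : Set ℕ) (m : ℕ) : List Bool := (List.range m).map (bit B)

/-- Turing reducibility: the characteristic function of `A` is recursive in that of `B`. -/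
def TR (A B : Set ℕ) : Prop :=
  TuringReducible (fun n => Part.some (bit A n).toNat) (fun n => Part.some (bit B n).toNat)

/-- Truth-table reducibility: a computable family of truth tables `h (n, ·)`, read on the first
`u n` bits of `B`, decides `A`. -/
def TT (A B : Set ℕ) : Prop :=
  ∃ (u : ℕ → ℕ) (h : ℕ × List Bool → Bool), Computable u ∧ Computable h ∧
    ∀ n, n ∈ A ↔ h (n, seg B (u n)) = true

/-- Weak truth-table reducibility: bit `n` of `A` is computed from the first `u n` bits of `B`,
`u` computable, by a computation that need not halt on other strings. -/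
def WTT (A B : Set ℕ) : Prop :=
  ∃ (u : ℕ → ℕ) (ψ : ℕ × List Bool →. Bool), Computable u ∧ Partrec ψ ∧
    ∀ n, bit A n ∈ ψ (n, seg B (u n))

/-- Enumeration reducibility: `W` is a recursively enumerable set of axioms `(n, D)`, `D` finite,
and `n ∈ A` exactly when some axiom `(n, D)` has `D ⊆ B`. -/
def ER (A B : Set ℕ) : Prop :=
  ∃ W : ℕ × List ℕ → Prop, REPred W ∧ ∀ n, n ∈ A ↔ ∃ D, W (n, D) ∧ ∀ m ∈ D, m ∈ B

/-- The degrees of `R`: the classes of mutual reducibility. -/
def Deg (R : Set ℕ → Set ℕ → Prop) : Type :=
  {a : Set (Set ℕ) // ∃ A, a = {X | R X A ∧ R A X}}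

/-- The order of the degrees: a member of `a` reduces to a member of `b`. -/
def DLe (R : Set ℕ → Set ℕ → Prop) (a b : Deg R) : Prop := ∃ A ∈ a.1, ∃ B ∈ b.1, R A B

/-- Every automorphism of the degrees of `R` is the identity. -/
def Rigid (R : Set ℕ → Set ℕ → Prop) : Prop :=
  ∀ π : Deg R → Deg R, Function.Bijective π → (∀ a b, DLe R a b ↔ DLe R (π a) (π b)) →
    ∀ a, π a = a

/-- `U` is an upward closed set of degrees. -/
def Up (R : Set ℕ → Set ℕ → Prop) (U : Set (Deg R)) : Prop := ∀ a ∈ U, ∀ b, DLe R a b → b ∈ U

/-- Isomorphic upward closed sets of degrees are equal, and the isomorphism is the identity. -/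
def SegRigid (R : Set ℕ → Set ℕ → Prop) : Prop :=
  ∀ U V : Set (Deg R), Up R U → Up R V → ∀ π : U → V, Function.Bijective π →
    (∀ a b : U, DLe R a.1 b.1 ↔ DLe R (π a).1 (π b).1) → U = V ∧ ∀ a : U, (π a).1 = a.1

end Vale.Agent.N327
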