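import Vale.Agent.N327.Bridge

/-!
# Rigidity of the truth-table, weak truth-table and enumeration degrees
-/

open Vale.Agent.N327

namespace Vale.Agent.N327.OldDegrees

theorem main :
    (∀ R ∈ [TT, WTT, ER], Rigid R ∧ SegRigid R) ∧
    ∀ R ∈ [TT, WTT, ER], (∀ A, R A A) ∧ ∀ A B C, R A B → R B C → R A C := by
  have h1 := Sys.rigid wbase tt_iff
  have h2 := Sys.rigid wbase wtt_iff
  have h3 := Sys.rigid ebase er_iff
  simp only [List.forall_mem_cons, List.not_mem_nil, false_imp_iff, implies_true, and_true]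
  exact ⟨⟨h1.1, h2.1, h3.1⟩, h1.2, h2.2, h3.2⟩

end Vale.Agent.N327.OldDegrees
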